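import Vale.Agent.P203.Mod.LemmaN
import Vale.Agent.P203.Fold.HSys
import Vale.Agent.P203.Sph.Deligne

/-! P203, MOD: from the algebra interface `Fold.AlgMain` and the weights `Weights` to
`GInv` and the lcm property (`Sph.LcmProp`). -/

set_option linter.all false

namespace Vale.Agent.P203.Mod

open Vale.Agent.P203.Cox Vale.Agent.P203.Gar CoxeterSystem PMod

variable {S C X Λ : Type} [Fintype X] [DecidableEq X] [Fintype Λ] [DecidableEq Λ]
  [DecidableEq C] [Fintype S] [DecidableEq S]
variable {k : Type} [Field k] {Γ : FGraph C X Λ} {ι : S → C} {M : CoxeterMatrix S}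

section alg

variable {H : ArtinGroup M → ℤ → PMod k Γ} (hH : Fold.IsHSys M Γ ι H)

include hH in
/-- Positive words act on modules concentrated in nonpositive degrees by `Cw` on `H⁰`. -/
theorem hsys_word (l : List S) : ∀ a : ArtinGroup M,
    (∀ m : ℤ, 1 ≤ m → (H a m).IsZero) →
    (∀ m : ℤ, 1 ≤ m → (H (a * (l.map (artinGen M)).prod) m).IsZero) ∧
      Isom (H (a * (l.map (artinGen M)).prod) 0) (Cw (l.map ι) (H a 0)) := by
  induction l with
  | nil =>
    intro a ha
    simp only [List.map_nil, List.prod_nil, mul_one]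
    exact ⟨ha, Isom.refl _⟩
  | cons s l ih =>
    intro a ha
    have hss : ∀ m : ℤ, 0 ≤ m → ∀ x, Subsingleton ((H a (m + 1)).V x) := fun m hm x =>
      ⟨fun u v => by rw [ha (m + 1) (by omega) x u, ha (m + 1) (by omega) x v]⟩
    have h1 : ∀ m : ℤ, 1 ≤ m → (H (a * artinGen M s) m).IsZero := by
      intro m hm
      have h2 := hH.step a m s (fun x _ => hss m (by omega) x)
      exact ((ha m hm).C (ι s)).of_isom h2.symm
    obtain ⟨h3, h4⟩ := ih (a * artinGen M s) h1
    rw [List.map_cons, List.prod_cons, ← mul_assoc]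
    refine ⟨h3, h4.trans ?_⟩
    rw [List.map_cons, Cw_cons]
    have h5 := hH.step a 0 s (fun x _ => by simpa using hss 0 le_rfl x)
    exact h5.Cw _

end alg

/-- `GInv` from the algebra interface. -/
theorem gInv_of_algMain (h : Fold.AlgMain k M Γ ι) : GInv k Γ ι M := by
  intro x l l' hll
  obtain ⟨H, hH, h0, hn⟩ := h (sim k Γ x) inferInstance (sim_nilp x)
  have hz : ∀ m : ℤ, 1 ≤ m → (H 1 m).IsZero := fun m hm y v => by
    have := hn m (by omega) y
    exact Subsingleton.elim _ _
  have h1 := (hsys_word hH l 1 hz).2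
  have h2 := (hsys_word hH l' 1 hz).2
  rw [hll] at h1
  exact ((h0.symm.Cw _).trans h1.symm).trans (h2.trans (h0.Cw _))

/-- The lcm property. -/
theorem lcmProp_of_algMain (h : Fold.AlgMain k M Γ ι) (w : Weights Γ ι M)
    (ne : ∀ s : S, ∃ x, Γ.π x = ι s) (U : Finset S) : Sph.LcmProp M U := by
  intro b hb R hR hR'
  exact (lcm_right (garLemmaN (gInv_of_algMain h) w ne (U : Set S))
    R.finite_toSet (by exact_mod_cast hR) hb (fun r hr => hR' r hr)).2

end Vale.Agent.P203.Mod
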