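import Vale.Agent.P203.Mod.Weights
import Vale.Agent.P203.Unf.Framed

/-! P203, MOD: the weights of the framed unfolding graph (`Fold.Weights`). -/

set_option linter.all false

namespace Vale.Agent.P203.Mod

open Vale.Agent.P203.Cox Vale.Agent.P203.Unf Finset

variable {S : Type} [Fintype S] [DecidableEq S] (M : CoxeterMatrix S)


/-- weights of the framed unfolding graph -/
noncomputable def etaF : FVtx M → ℝ
  | .inl x => eta x.2
  | .inr x => eta x.2

theorem etaF_pos (x : FVtx M) : 0 < etaF M x := by
  rcases x with x | x
  · exact eta_pos _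
  · exact eta_pos _

theorem neg_gram_eq_cst (r t : S) : - gram M r t = cst M r t := by
  unfold gram cst
  split_ifs <;> ring

theorem sum_fibre (r : S) (G : FVtx M → ℝ) :
    ∑ x with (unfF M).π x = Sum.inl r, G x = ∑ i : Idx M, G (.inl (r, i)) := by
  rw [Finset.sum_filter, Fintype.sum_sum_type]
  have h1 : ∑ x : Vtx M, (if (unfF M).π (.inr x) = Sum.inl r then G (.inr x) else 0) = 0 :=
    Finset.sum_eq_zero fun x _ => if_neg (by rw [unfF_π_inr]; exact Sum.inr_ne_inl)
  rw [h1, add_zero, Fintype.sum_prod_type, Finset.sum_eq_single r]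
  · refine Finset.sum_congr rfl fun i _ => ?_
    rw [if_pos (by rw [unfF_π_inl])]
  · intro t _ ht
    refine Finset.sum_eq_zero fun i _ => if_neg ?_
    rw [unfF_π_inl]
    exact fun h => ht (Sum.inl.inj h)
  · intro h; exact absurd (Finset.mem_univ _) h

/-- the weights of the framed unfolding graph -/
noncomputable def unfWeights : Weights (unfF M) Sum.inl M where
  η := etaF M
  pos := etaF_pos M
  inj := Sum.inl_injective
  eig s t hst y hy := by
    classical
    have hts : t ≠ s := Ne.symm hst
    obtain ⟨⟨t', j⟩, rfl⟩ : ∃ z : Vtx M, y = .inl z := by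
      rcases y with z | z
      · exact ⟨z, rfl⟩
      · rw [unfF_π_inr] at hy
        exact absurd hy Sum.inr_ne_inl
    rw [unfF_π_inl] at hy
    have hy' : t' = t := Sum.inl.inj hy
    subst hy'
    have h0 : ∑ x : FVtx M, ∑ l : Fin 2,
        (if (unfF M).π x = Sum.inl s ∧ (unfF M).adj x (.inl (t', j)) l = true then etaF M x else 0) =
        ∑ x with (unfF M).π x = Sum.inl s, (nadjF x (.inl (t', j)) : ℝ) * etaF M x := by
      rw [Finset.sum_filter]
      refine Finset.sum_congr rfl fun x _ => ?_
      split_ifs with hx
      · have h1 : ∀ l : Fin 2, (if (unfF M).π x = Sum.inl s ∧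
            (unfF M).adj x (.inl (t', j)) l = true then etaF M x else 0) =
            if ((l : ℕ) < nadjF x (.inl (t', j))) then etaF M x else 0 := by
          intro l
          simp only [hx, true_and, unfF_adj]
        simp only [h1]
        rw [← Finset.sum_filter, Finset.sum_const, nsmul_eq_mul]
        congr 2
        have h2 := nadjF_le_two x (.inl (t', j))
        have h3 : (Finset.univ.filter fun l : Fin 2 => (l : ℕ) < nadjF x (.inl (t', j))).card =
            nadjF x (.inl (t', j)) := by
          interval_cases nadjF x (.inl (t', j)) <;> decide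
        exact h3
      · refine Finset.sum_eq_zero fun l _ => if_neg fun h => hx h.1
    rw [h0, sum_fibre M s]
    rw [neg_gram_eq_cst]
    have h4 := sum_nadj_eta (M := M) hts j
    have h5 : cst M s t' = cst M t' s := by unfold cst; rw [M.symmetric s t']
    rw [h5]
    refine Eq.trans ?_ h4
    refine Finset.sum_congr rfl fun i _ => ?_
    rw [nadj_symm (t', j) (s, i)]
    rfl

theorem unfF_ne (s : S) : ∃ x, (unfF M).π x = Sum.inl s := ⟨.inl (s, fun e => 0), rfl⟩

end Vale.Agent.P203.Mod
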