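import Vale.Agent.P203.Mod.Basic

/-!
# P203: nilpotency of representations of a multigraph

`Kill a L x v`: every path of length `L` starting at `x` kills `v`.
`Nil a`: for some `L` all paths of length `L` act by zero.
-/

set_option linter.all false

namespace Vale.Agent.P203.Mod

variable {S X Λ : Type} [Fintype X] [DecidableEq X] [Fintype Λ] [DecidableEq Λ] [DecidableEq S]
variable {k : Type} [Field k] {Γ : FGraph S X Λ}

section Kill

variable {V : X → Type} [∀ x, AddCommGroup (V x)] [∀ x, Module k (V x)]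

/-- Every path of length `L` starting at `x` kills the vector `v`. -/
def Kill (Γ : FGraph S X Λ) (a : ∀ x y, Λ → (V x →ₗ[k] V y)) : ℕ → ∀ x, V x → Prop
  | 0, _, v => v = 0
  | n + 1, x, v => ∀ p : Γ.Nb x, Kill Γ a n p.1.1 (a x p.1.1 p.1.2 v)

variable {a : ∀ x y, Λ → (V x →ₗ[k] V y)}

theorem Kill.zero_iff {x : X} {v : V x} : Kill Γ a 0 x v ↔ v = 0 := Iff.rfl

theorem Kill.succ_iff {n : ℕ} {x : X} {v : V x} :
    Kill Γ a (n + 1) x v ↔ ∀ p : Γ.Nb x, Kill Γ a n p.1.1 (a x p.1.1 p.1.2 v) := Iff.rfl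

theorem Kill.zero (n : ℕ) (x : X) : Kill Γ a n x 0 := by
  induction n generalizing x with
  | zero => rfl
  | succ n ih =>
    intro p
    rw [map_zero]
    exact ih _

theorem Kill.add {n : ℕ} {x : X} {v w : V x} (hv : Kill Γ a n x v) (hw : Kill Γ a n x w) :
    Kill Γ a n x (v + w) := by
  induction n generalizing x with
  | zero =>
    rw [Kill.zero_iff] at *
    rw [hv, hw, add_zero]
  | succ n ih =>
    intro p
    rw [map_add]
    exact ih (hv p) (hw p)

theorem Kill.smul {n : ℕ} {x : X} {v : V x} (c : k) (hv : Kill Γ a n x v) :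
    Kill Γ a n x (c • v) := by
  induction n generalizing x with
  | zero =>
    rw [Kill.zero_iff] at *
    rw [hv, smul_zero]
  | succ n ih =>
    intro p
    rw [map_smul]
    exact ih (hv p)

theorem Kill.succ {n : ℕ} {x : X} {v : V x} (hv : Kill Γ a n x v) : Kill Γ a (n + 1) x v := by
  induction n generalizing x with
  | zero =>
    rw [Kill.zero_iff] at hv
    subst hv
    exact Kill.zero _ _
  | succ n ih =>
    intro p
    exact ih (hv p)

theorem Kill.mono {n m : ℕ} (h : n ≤ m) {x : X} {v : V x} (hv : Kill Γ a n x v) :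
    Kill Γ a m x v := by
  induction h with
  | refl => exact hv
  | step _ ih => exact ih.succ

/-- the vectors at `x` killed by all paths of length `n` -/
def killSub (Γ : FGraph S X Λ) (a : ∀ x y, Λ → (V x →ₗ[k] V y)) (n : ℕ) (x : X) :
    Submodule k (V x) where
  carrier := {v | Kill Γ a n x v}
  add_mem' hv hw := hv.add hw
  zero_mem' := Kill.zero n x
  smul_mem' c _ hv := hv.smul c

theorem mem_killSub {n : ℕ} {x : X} {v : V x} : v ∈ killSub Γ a n x ↔ Kill Γ a n x v := Iff.rfl

/-- maps which commute with the arrows preserve `Kill` -/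
theorem Kill.map {V' : X → Type} [∀ x, AddCommGroup (V' x)] [∀ x, Module k (V' x)]
    {a' : ∀ x y, Λ → (V' x →ₗ[k] V' y)} (f : ∀ x, V x →ₗ[k] V' x)
    (hf : ∀ {x y l}, Γ.adj x y l = true → ∀ v : V x, f y (a x y l v) = a' x y l (f x v))
    {n : ℕ} {x : X} {v : V x} (hv : Kill Γ a n x v) : Kill Γ a' n x (f x v) := by
  induction n generalizing x with
  | zero =>
    rw [Kill.zero_iff] at *
    rw [hv, map_zero]
  | succ n ih =>
    intro p
    rw [← hf p.2]
    exact ih (hv p)

/-- injective maps which commute with the arrows reflect `Kill` -/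
theorem Kill.of_map {V' : X → Type} [∀ x, AddCommGroup (V' x)] [∀ x, Module k (V' x)]
    {a' : ∀ x y, Λ → (V' x →ₗ[k] V' y)} (f : ∀ x, V x →ₗ[k] V' x)
    (hf : ∀ {x y l}, Γ.adj x y l = true → ∀ v : V x, f y (a x y l v) = a' x y l (f x v))
    (hinj : ∀ x, Function.Injective (f x))
    {n : ℕ} {x : X} {v : V x} (hv : Kill Γ a' n x (f x v)) : Kill Γ a n x v := by
  induction n generalizing x with
  | zero =>
    rw [Kill.zero_iff] at *
    exact hinj x (by rw [hv, map_zero])
  | succ n ih =>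
    intro p
    apply ih
    rw [hf p.2]
    exact hv p

/-- First pattern of reflection: `a' = inc ∘ val`, `val ∘ inc = a`. -/
theorem Kill.of_inc_val {V' : X → Type} [∀ x, AddCommGroup (V' x)] [∀ x, Module k (V' x)]
    {a' : ∀ x y, Λ → (V' x →ₗ[k] V' y)} (val : ∀ x, V' x → V x) (inc : ∀ x y, Λ → V x → V' y)
    (h0 : ∀ x y l, inc x y l 0 = 0)
    (h1 : ∀ {x y l}, Γ.adj x y l = true → ∀ z : V' x, a' x y l z = inc x y l (val x z))
    (h2 : ∀ {x y l}, Γ.adj x y l = true → ∀ v : V x, val y (inc x y l v) = a x y l v)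
    {n : ℕ} {x : X} {z : V' x} (hz : Kill Γ a n x (val x z)) : Kill Γ a' (n + 1) x z := by
  have key : ∀ (n : ℕ) {x y : X} {l : Λ}, Γ.adj x y l = true → ∀ v : V x, Kill Γ a n x v →
      Kill Γ a' n y (inc x y l v) := by
    intro n
    induction n with
    | zero =>
      intro x y l _ v hv
      rw [Kill.zero_iff] at *
      rw [hv, h0]
    | succ n ih =>
      intro x y l h v hv p
      rw [h1 p.2, h2 h]
      exact ih p.2 _ (hv ⟨(y, l), h⟩)
  intro p
  rw [h1 p.2]
  exact key n p.2 _ hz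

/-- Second pattern of reflection: `a' = inc ∘ prj`, `prj ∘ inc = a`. -/
theorem Kill.of_inc_prj {V' : X → Type} [∀ x, AddCommGroup (V' x)] [∀ x, Module k (V' x)]
    {a' : ∀ x y, Λ → (V' x →ₗ[k] V' y)} (inc : ∀ x, V x → V' x) (prj : ∀ x y, Λ → V' x → V y)
    (h0 : ∀ x, inc x 0 = 0)
    (h1 : ∀ {x y l}, Γ.adj x y l = true → ∀ z : V' x, a' x y l z = inc y (prj x y l z))
    (h2 : ∀ {x y l}, Γ.adj x y l = true → ∀ v : V x, prj x y l (inc x v) = a x y l v)
    {n : ℕ} {x : X} {z : V' x}
    (hz : ∀ p : Γ.Nb x, Kill Γ a n p.1.1 (prj x p.1.1 p.1.2 z)) : Kill Γ a' (n + 1) x z := by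
  have key : ∀ (n : ℕ) {x : X}, ∀ v : V x, Kill Γ a n x v → Kill Γ a' n x (inc x v) := by
    intro n
    induction n with
    | zero =>
      intro x v hv
      rw [Kill.zero_iff] at *
      rw [hv, h0]
    | succ n ih =>
      intro x v hv p
      rw [h1 p.2, h2 p.2]
      exact ih _ (hv p)
  intro p
  rw [h1 p.2]
  exact key n _ (hz p)

end Kill

namespace PMod

/-- Nilpotent modules: all paths of some length act by zero. -/
def Nilp (V : PMod k Γ) : Prop := ∃ L, ∀ x (v : V.V x), Kill Γ V.a L x v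

theorem Nilp.of_surj {V W : PMod k Γ} (f : Hom V W) (hf : f.Surj) (h : V.Nilp) : W.Nilp := by
  obtain ⟨L, hL⟩ := h
  refine ⟨L, fun x w => ?_⟩
  obtain ⟨v, rfl⟩ := hf x w
  exact (hL x v).map f.f (fun h v => f.comm h v)

theorem Nilp.of_inj {V W : PMod k Γ} (f : Hom V W) (hf : f.Inj) (h : W.Nilp) : V.Nilp := by
  obtain ⟨L, hL⟩ := h
  exact ⟨L, fun x v => Kill.of_map f.f (fun h v => f.comm h v) hf (hL x _)⟩

theorem Nilp.of_isom {V W : PMod k Γ} (h : Isom V W) (hV : V.Nilp) : W.Nilp := by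
  obtain ⟨f, hf⟩ := h
  exact hV.of_surj f hf.surj

/-- nilpotency in terms of a finite filtration -/
theorem nilp_iff_filtration {V : PMod k Γ} : V.Nilp ↔
    ∃ (F : ℕ → ∀ x, Submodule k (V.V x)) (L : ℕ), (∀ x, F 0 x = ⊤) ∧ (∀ x, F L x = ⊥) ∧
      ∀ n x y l, Γ.adj x y l = true → ∀ v ∈ F n x, V.a x y l v ∈ F (n + 1) y := by
  constructor
  · rintro ⟨L, hL⟩
    refine ⟨fun n x => killSub Γ V.a (L - n) x, L, ?_, ?_, ?_⟩
    · intro x
      rw [eq_top_iff]
      intro v _
      exact hL x v
    · intro x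
      rw [eq_bot_iff]
      intro v hv
      simp only [Nat.sub_self] at hv
      exact hv
    · intro n x y l h v hv
      rcases Nat.eq_zero_or_pos (L - n) with h0 | h0
      · simp only [h0] at hv
        have : v = 0 := hv
        rw [this, map_zero]
        exact Submodule.zero_mem _
      · obtain ⟨m, hm⟩ : ∃ m, L - n = m + 1 := ⟨L - n - 1, by omega⟩
        have hm' : L - (n + 1) = m := by omega
        simp only [hm] at hv
        simp only [hm']
        exact hv ⟨(y, l), h⟩
  · rintro ⟨F, L, h0, hL, hF⟩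
    refine ⟨L, ?_⟩
    have key : ∀ m n, n + m = L → ∀ x (v : V.V x), v ∈ F n x → Kill Γ V.a m x v := by
      intro m
      induction m with
      | zero =>
        intro n hn x v hv
        rw [add_zero] at hn
        rw [hn, hL] at hv
        exact hv
      | succ m ih =>
        intro n hn x v hv p
        exact ih (n + 1) (by omega) _ _ (hF n x _ _ p.2 v hv)
    intro x v
    exact key L 0 (by omega) x v (by rw [h0]; exact Submodule.mem_top)

end PMod

end Vale.Agent.P203.Mod
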