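import Vale.Agent.P203.Mod.Word
import Vale.Agent.P203.Gar.Lcm

set_option linter.all false

namespace Vale.Agent.P203.Mod

open Vale.Agent.P203.Cox Vale.Agent.P203.Gar CoxeterSystem PMod

variable {S C X Λ : Type} [Fintype X] [DecidableEq X] [Fintype Λ] [DecidableEq Λ]
  [DecidableEq C] [Fintype S] [DecidableEq S]
variable {k : Type} [Field k] {Γ : FGraph C X Λ} {ι : S → C} {M : CoxeterMatrix S}

/-- `w` is a simple left divisor of `b` in the monoid of `U`. -/
def LDiv (M : CoxeterMatrix S) (U : Set S) (b : ArtinGroup M) (w : M.Group) : Prop :=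
  w ∈ WP M U ∧ ∃ b' ∈ PM M U, b = tl w * b'

theorem LDiv.len_le {U : Set S} {b : ArtinGroup M} {w : M.Group} (h : LDiv M U b w) :
    (len M w : ℤ) ≤ alen b := by
  obtain ⟨_, b', hb', rfl⟩ := h
  rw [alen_mul, alen_tl]
  have := alen_nonneg hb'
  omega

theorem ldiv_one {U : Set S} {b : ArtinGroup M} (hb : b ∈ PM M U) : LDiv M U b 1 :=
  ⟨one_mem _, b, hb, by rw [tl_one, one_mul]⟩

theorem ldiv_simple {U : Set S} {b : ArtinGroup M} {s : S} (hs : s ∈ U) (hb : b ∈ PM M U) :
    LDiv M U (artinGen M s * b) (M.simple s) :=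
  ⟨simple_mem_parab (cs := M.toCoxeterSystem) hs, b, hb, by rw [tl_simple]⟩

/-- Among the simple left divisors with a given property there is one of maximal length. -/
theorem exists_max_ldiv {U : Set S} {b : ArtinGroup M} (p : M.Group → Prop)
    (h0 : ∃ w, LDiv M U b w ∧ p w) :
    ∃ w, LDiv M U b w ∧ p w ∧ ∀ w', LDiv M U b w' → p w' → len M w' ≤ len M w := by
  classical
  have hbd : ∀ n, (∃ w, (LDiv M U b w ∧ p w) ∧ len M w = n) → n ≤ (alen b).toNat := by
    rintro n ⟨w, hw, rfl⟩
    have := hw.1.len_le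
    omega
  obtain ⟨w0, hw0⟩ := h0
  have hex : ∃ n, ∃ w, (LDiv M U b w ∧ p w) ∧ len M w = n := ⟨_, w0, hw0, rfl⟩
  have h1 := Nat.findGreatest_spec (P := fun n => ∃ w, (LDiv M U b w ∧ p w) ∧ len M w = n)
    (hbd _ ⟨w0, hw0, rfl⟩) ⟨w0, hw0, rfl⟩
  obtain ⟨w, hw, hlen⟩ := h1
  refine ⟨w, hw.1, hw.2, fun w' hw' hp' => ?_⟩
  rw [hlen]
  exact Nat.le_findGreatest (hbd _ ⟨w', ⟨hw', hp'⟩, rfl⟩) ⟨w', ⟨hw', hp'⟩, rfl⟩

theorem simple_ne {r s : S} (h : s ≠ r) : len M (M.simple s) < len M (M.simple r * M.simple s) := by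
  rcases len_simple_mul (M.simple s) r with h' | h'
  · omega
  · exfalso
    rw [len_simple] at h'
    have h0 : len M (M.simple r * M.simple s) = 0 := by omega
    have h1 : M.simple r * M.simple s = 1 := M.toCoxeterSystem.length_eq_zero_iff.1 h0
    have h2 : M.simple s = M.simple r := by
      rw [← simple_inv r]
      exact (inv_eq_of_mul_eq_one_right h1).symm
    have h4 : M.toCoxeterSystem.simple r ∈ parab M.toCoxeterSystem {r} :=
      simple_mem_parab (Set.mem_singleton r)
    have h3 : M.toCoxeterSystem.simple s ∈ parab M.toCoxeterSystem {r} := by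
      have h5 : M.toCoxeterSystem.simple s = M.toCoxeterSystem.simple r := h2
      rw [h5]
      exact h4
    exact h ((simple_mem_parab_iff (cs := M.toCoxeterSystem) (T := {r}) (i := s)).1 h3)

/-- If the word kills `S_x`, the remaining word kills the simple quotients of `C_w S_x`. -/
theorem kill_rest (hG : GInv k Γ ι M) {w : M.Group} {l l2 : List S} {x y : X}
    (e : (l.map (artinGen M)).prod = tl w * (l2.map (artinGen M)).prod)
    (hz : (Cw (l.map ι) (sim k Γ x)).IsZero) (f : Hom (CW ι w (sim k Γ x)) (sim k Γ y))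
    (hf : f.Surj) : (Cw (l2.map ι) (sim k Γ y)).IsZero := by
  obtain ⟨g, hg⟩ := exists_Cw_surj (l2.map ι) f hf
  refine IsZero.of_surj g hg ?_
  have e1 : Cw (l2.map ι) (CW ι w (sim k Γ x)) = Cw ((redWord M w ++ l2).map ι) (sim k Γ x) := by
    rw [List.map_append, Cw_append]; rfl
  rw [e1]
  refine IsZero.of_isom (hG x l (redWord M w ++ l2) ?_) hz
  rw [List.map_append, List.prod_append]
  exact e

/-- **Lemma N.** If a positive word kills the simple module `S_x`, then its value in the Artin
group is left divisible by the generator of `x`. -/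
theorem lemmaN (hG : GInv k Γ ι M) (E : Weights Γ ι M) {U : Set S} (n : ℕ) :
    ∀ (l : List S), l.length = n → (∀ i ∈ l, i ∈ U) → ∀ (x : X) (r : S), Γ.π x = ι r → r ∈ U →
      (Cw (l.map ι) (sim k Γ x)).IsZero →
      ∃ b' ∈ PM M U, (l.map (artinGen M)).prod = artinGen M r * b' := by
  induction n using Nat.strong_induction_on with
  | _ n ih =>
    intro l hn hl x r hx hr hz
    cases l with
    | nil => exact absurd hz (sim_not_zero x)
    | cons s l =>
      have hs : s ∈ U := hl s List.mem_cons_self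
      have hl' : ∀ i ∈ l, i ∈ U := fun i hi => hl i (List.mem_cons_of_mem _ hi)
      have hb1m : (l.map (artinGen M)).prod ∈ PM M U := prod_mem_PM hl'
      by_cases hsr : s = r
      · exact ⟨(l.map (artinGen M)).prod, hb1m, by rw [← hsr, List.map_cons, List.prod_cons]⟩
      -- a maximal simple left divisor without left descent `r`
      obtain ⟨w, ⟨hwU, b', hb', hbw⟩, hwp, hmax⟩ := exists_max_ldiv (M := M) (U := U)
        (b := artinGen M s * (l.map (artinGen M)).prod)
        (fun w => len M w < len M (M.simple r * w))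
        ⟨M.simple s, ldiv_simple hs hb1m, simple_ne hsr⟩
      have hwpos : 1 ≤ len M w := by
        have := hmax _ (ldiv_simple hs hb1m) (simple_ne hsr)
        rwa [len_simple] at this
      obtain ⟨y, q, hyq, hqU, hylen, f, hf⟩ := exists_quot hG E hwU hx hr hwp
      obtain ⟨l2, hl2, hb'2⟩ := exists_word_of_mem_PM hb'
      -- the rest kills `S_y`
      have e2 : ((s :: l).map (artinGen M)).prod = tl w * (l2.map (artinGen M)).prod := by
        rw [List.map_cons, List.prod_cons, ← hb'2]
        exact hbw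
      have hzy : (Cw (l2.map ι) (sim k Γ y)).IsZero := kill_rest hG e2 hz f hf
      have hlen2 : l2.length < n := by
        have h1 := congrArg alen e2
        rw [alen_mul, alen_tl, alen_prod, alen_prod, hn] at h1
        omega
      obtain ⟨b'', hb'', hb2⟩ := ih l2.length hlen2 l2 rfl hl2 y q hyq hqU hzy
      have hdiv : ((s :: l).map (artinGen M)).prod = tl (w * M.simple q) * b'' := by
        rw [e2, hb2, tl_mul_simple hylen, mul_assoc]
      have hwyU : w * M.simple q ∈ WP M U :=
        mul_mem hwU (simple_mem_parab (cs := M.toCoxeterSystem) hqU)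
      by_cases hdesc : len M (w * M.simple q) < len M (M.simple r * (w * M.simple q))
      · exfalso
        have := hmax _ ⟨hwyU, b'', hb'', by rw [← hdiv, List.map_cons, List.prod_cons]⟩ hdesc
        omega
      · have hdesc' : len M (M.simple r * (w * M.simple q)) < len M (w * M.simple q) := by
          rcases len_simple_mul (w * M.simple q) r with h | h <;> omega
        refine ⟨tl (M.simple r * (w * M.simple q)) * b'', ?_, ?_⟩
        · refine mul_mem (tl_mem_PM (mul_mem ?_ hwyU)) hb''
          exact simple_mem_parab (cs := M.toCoxeterSystem) hr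
        · rw [hdiv, tl_eq_mul_of_left_desc hdesc', mul_assoc]

/-- Lemma N for words. -/
theorem lemmaN_word (hG : GInv k Γ ι M) (E : Weights Γ ι M) {U : Set S} {l : List S}
    (hl : ∀ i ∈ l, i ∈ U) {x : X} {r : S} (hx : Γ.π x = ι r) (hr : r ∈ U)
    (hz : (Cw (l.map ι) (sim k Γ x)).IsZero) :
    ∃ l' : List S, (∀ i ∈ l', i ∈ U) ∧
      (l.map (artinGen M)).prod = artinGen M r * (l'.map (artinGen M)).prod := by
  obtain ⟨b', hb', h⟩ := lemmaN hG E l.length l rfl hl x r hx hr hz
  obtain ⟨l', hl', rfl⟩ := exists_word_of_mem_PM hb'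
  exact ⟨l', hl', h⟩

/-- The form used for least common multiples (`Vale.Agent.P203.Gar.LemmaN`). -/
theorem garLemmaN (hG : GInv k Γ ι M) (E : Weights Γ ι M) (hsurj : ∀ s : S, ∃ x, Γ.π x = ι s)
    (U : Set S) : Gar.LemmaN M U := by
  intro b hb w hw r hr hd
  by_contra hcon
  have h3 : len M w < len M (M.simple r * w) := by
    rcases len_simple_mul w r with h | h <;> omega
  obtain ⟨x, hx⟩ := hsurj r
  obtain ⟨l, hl, hbl⟩ := exists_word_of_mem_PM hd
  obtain ⟨l2, hl2, hbl2⟩ := exists_word_of_mem_PM hw.dvd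
  have e : ((r :: l).map (artinGen M)).prod = tl w * (l2.map (artinGen M)).prod := by
    rw [List.map_cons, List.prod_cons, ← hbl, ← hbl2]
    group
  have hz : (Cw ((r :: l).map ι) (sim k Γ x)).IsZero := by
    rw [List.map_cons, Cw_cons, ← hx]
    exact IsZero.Cw _ (C_sim_isZero x)
  obtain ⟨y, q, hyq, hqU, hylen, f, hf⟩ := exists_quot hG E hw.mem hx hr h3
  have hzy := kill_rest hG e hz f hf
  obtain ⟨b'', hb'', hb2⟩ := lemmaN hG E l2.length l2 rfl hl2 y q hyq hqU hzy
  refine hw.max q hqU hylen ?_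
  rw [hbl2, hb2, inv_mul_cancel_left]
  exact hb''

end Vale.Agent.P203.Mod
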