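import Mathlib.LinearAlgebra.FiniteDimensional.Lemmas
import Mathlib.LinearAlgebra.Dimension.Constructions
import Mathlib.LinearAlgebra.Pi
import Mathlib.LinearAlgebra.Prod
import Mathlib.Tactic

/-!
# Modules over (the sign-free form of) the preprojective algebra of a finite multigraph

`FGraph S X Λ`: a finite multigraph on the vertex set `X`, the edges between `x` and `y` being the
labels `l : Λ` with `adj x y l`; it is folded over `S` by `π : X → S` with independent fibres.

A module `V` is a family of vector spaces `V x` with maps `a x y l : V x → V y`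
(only those with `adj x y l` matter) with `∑ a (y→x) ∘ a (x→y) = 0` at every vertex `x`.
-/

set_option linter.all false

namespace Vale.Agent.P203.Mod

/-- A finite multigraph with vertex set `X` and edge labels `Λ`, folded over `S`. -/
structure FGraph (S X Λ : Type) where
  /-- the folding map -/
  π : X → S
  /-- `adj x y l`: there is an edge with label `l` between `x` and `y` -/
  adj : X → X → Λ → Bool
  symm : ∀ {x y l}, adj x y l = true → adj y x l = true
  indep : ∀ {x y l}, adj x y l = true → π x ≠ π y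

variable {S X Λ : Type} [Fintype X] [DecidableEq X] [Fintype Λ] [DecidableEq Λ] [DecidableEq S]

/-- The darts starting at `x`. -/
abbrev FGraph.Nb (Γ : FGraph S X Λ) (x : X) : Type := {p : X × Λ // Γ.adj x p.1 p.2 = true}

/-- Modules over the preprojective algebra of `Γ`. -/
structure PMod (k : Type) [Field k] (Γ : FGraph S X Λ) where
  /-- the vector spaces -/
  V : X → Type
  [acg : ∀ x, AddCommGroup (V x)]
  [mod : ∀ x, Module k (V x)]
  /-- the maps -/
  a : ∀ x y, Λ → (V x →ₗ[k] V y)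
  rel : ∀ x (v : V x), ∑ p : Γ.Nb x, a p.1.1 x p.1.2 (a x p.1.1 p.1.2 v) = 0

attribute [instance] PMod.acg PMod.mod

variable {k : Type} [Field k] {Γ : FGraph S X Λ}

namespace PMod

/-- The sum `N_x` of the neighbouring spaces. -/
abbrev N (V : PMod k Γ) (x : X) : Type := (p : Γ.Nb x) → V.V p.1.1

/-- The map `i_x : N_x → V_x`. -/
def i (V : PMod k Γ) (x : X) : V.N x →ₗ[k] V.V x :=
  ∑ p : Γ.Nb x, (V.a p.1.1 x p.1.2) ∘ₗ (LinearMap.proj p)

/-- The map `j_x : V_x → N_x`. -/
def j (V : PMod k Γ) (x : X) : V.V x →ₗ[k] V.N x :=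
  LinearMap.pi fun p => V.a x p.1.1 p.1.2

theorem i_apply (V : PMod k Γ) (x : X) (n : V.N x) :
    V.i x n = ∑ p : Γ.Nb x, V.a p.1.1 x p.1.2 (n p) := by
  simp [i]

@[simp] theorem j_apply (V : PMod k Γ) (x : X) (v : V.V x) (p : Γ.Nb x) :
    V.j x v p = V.a x p.1.1 p.1.2 v := rfl

@[simp] theorem i_j (V : PMod k Γ) (x : X) (v : V.V x) : V.i x (V.j x v) = 0 := by
  rw [i_apply]
  exact V.rel x v

/-- The vector of `N_y` with the single component `v` at the neighbour `(x, l)`. -/
def sg (V : PMod k Γ) (x y : X) (l : Λ) : V.V x →ₗ[k] V.N y :=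
  if h : Γ.adj y x l = true then
    LinearMap.single k (fun p : Γ.Nb y => V.V p.1.1) ⟨(x, l), h⟩ else 0

theorem sg_of (V : PMod k Γ) {x y : X} {l : Λ} (h : Γ.adj y x l = true) (v : V.V x) :
    V.sg x y l v = Pi.single (M := fun p : Γ.Nb y => V.V p.1.1) ⟨(x, l), h⟩ v := by
  simp [sg, h]

theorem sum_sg (V : PMod k Γ) (x : X) (n : V.N x) :
    ∑ p : Γ.Nb x, V.sg p.1.1 x p.1.2 (n p) = n := by
  have : ∀ p : Γ.Nb x, V.sg p.1.1 x p.1.2 (n p) = Pi.single (M := fun p : Γ.Nb x => V.V p.1.1) p (n p) := by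
    intro p
    exact V.sg_of p.2 (n p)
  simp only [this]
  exact Finset.univ_sum_single n

theorem i_sg (V : PMod k Γ) {x y : X} {l : Λ} (h : Γ.adj y x l = true) (v : V.V x) :
    V.i y (V.sg x y l v) = V.a x y l v := by
  rw [sg_of V h, i_apply]
  rw [Finset.sum_eq_single (⟨(x, l), h⟩ : Γ.Nb y)]
  · simp
  · intro p _ hp
    rw [Pi.single_eq_of_ne hp, map_zero]
  · intro h'
    exact absurd (Finset.mem_univ _) h'

/-- Module homomorphisms. -/
@[ext] structure Hom (V W : PMod k Γ) where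
  /-- the components -/
  f : ∀ x, V.V x →ₗ[k] W.V x
  comm : ∀ {x y l}, Γ.adj x y l = true → ∀ v : V.V x, f y (V.a x y l v) = W.a x y l (f x v)

/-- The identity. -/
def Hom.id (V : PMod k Γ) : Hom V V := ⟨fun _ => LinearMap.id, fun _ _ => rfl⟩

/-- Composition. -/
def Hom.comp {V W U : PMod k Γ} (g : Hom W U) (f : Hom V W) : Hom V U :=
  ⟨fun x => g.f x ∘ₗ f.f x, fun h v => by simp [f.comm h, g.comm h]⟩

/-- Surjectivity of a homomorphism. -/
def Hom.Surj {V W : PMod k Γ} (f : Hom V W) : Prop := ∀ x, Function.Surjective (f.f x)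

/-- Injectivity of a homomorphism. -/
def Hom.Inj {V W : PMod k Γ} (f : Hom V W) : Prop := ∀ x, Function.Injective (f.f x)

/-- Bijectivity of a homomorphism. -/
def Hom.Bij {V W : PMod k Γ} (f : Hom V W) : Prop := ∀ x, Function.Bijective (f.f x)

/-- The zero homomorphism. -/
def Hom.zero (V W : PMod k Γ) : Hom V W := ⟨fun _ => 0, fun _ _ => by simp⟩

/-- `V` and `W` are isomorphic. -/
def Isom (V W : PMod k Γ) : Prop := ∃ f : Hom V W, f.Bij

theorem Hom.Surj.comp {V W U : PMod k Γ} {g : Hom W U} {f : Hom V W} (hg : g.Surj) (hf : f.Surj) :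
    (g.comp f).Surj := fun x => (hg x).comp (hf x)

theorem Hom.Inj.comp {V W U : PMod k Γ} {g : Hom W U} {f : Hom V W} (hg : g.Inj) (hf : f.Inj) :
    (g.comp f).Inj := fun x => (hg x).comp (hf x)

theorem Hom.Bij.comp {V W U : PMod k Γ} {g : Hom W U} {f : Hom V W} (hg : g.Bij) (hf : f.Bij) :
    (g.comp f).Bij := fun x => (hg x).comp (hf x)

theorem Hom.Bij.surj {V W : PMod k Γ} {f : Hom V W} (hf : f.Bij) : f.Surj := fun x => (hf x).2

theorem Hom.Bij.inj {V W : PMod k Γ} {f : Hom V W} (hf : f.Bij) : f.Inj := fun x => (hf x).1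

theorem Hom.id_bij (V : PMod k Γ) : (Hom.id V).Bij := fun _ => Function.bijective_id

/-- The inverse of a bijective homomorphism. -/
noncomputable def Hom.inv {V W : PMod k Γ} (f : Hom V W) (hf : f.Bij) : Hom W V where
  f x := (LinearEquiv.ofBijective (f.f x) (hf x)).symm.toLinearMap
  comm {x y l} h v := by
    apply (hf y).1
    rw [f.comm h]
    have h1 : ∀ (z : X) (w : W.V z), (f.f z) ((LinearEquiv.ofBijective (f.f z) (hf z)).symm w) = w :=
      fun z w => LinearEquiv.apply_symm_apply (LinearEquiv.ofBijective (f.f z) (hf z)) w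
    simp only [LinearEquiv.coe_coe, h1]

theorem Hom.inv_bij {V W : PMod k Γ} (f : Hom V W) (hf : f.Bij) : (f.inv hf).Bij := fun x =>
  (LinearEquiv.ofBijective (f.f x) (hf x)).symm.bijective

theorem Isom.refl (V : PMod k Γ) : Isom V V := ⟨Hom.id V, Hom.id_bij V⟩

theorem Isom.symm {V W : PMod k Γ} (h : Isom V W) : Isom W V := by
  obtain ⟨f, hf⟩ := h
  exact ⟨f.inv hf, f.inv_bij hf⟩

theorem Isom.trans {V W U : PMod k Γ} (h : Isom V W) (h' : Isom W U) : Isom V U := by
  obtain ⟨f, hf⟩ := h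
  obtain ⟨g, hg⟩ := h'
  exact ⟨g.comp f, hg.comp hf⟩

/-- The map on `N_x` induced by a homomorphism. -/
def Hom.n {V W : PMod k Γ} (f : Hom V W) (x : X) : V.N x →ₗ[k] W.N x :=
  LinearMap.pi fun p => f.f p.1.1 ∘ₗ LinearMap.proj p

@[simp] theorem Hom.n_apply {V W : PMod k Γ} (f : Hom V W) (x : X) (n : V.N x) (p : Γ.Nb x) :
    f.n x n p = f.f p.1.1 (n p) := rfl

theorem Hom.n_surj {V W : PMod k Γ} {f : Hom V W} (x : X)
    (h : ∀ p : Γ.Nb x, Function.Surjective (f.f p.1.1)) : Function.Surjective (f.n x) := by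
  intro m
  choose g hg using fun p : Γ.Nb x => h p (m p)
  exact ⟨g, funext fun p => hg p⟩

theorem Hom.n_inj {V W : PMod k Γ} {f : Hom V W} (x : X)
    (h : ∀ p : Γ.Nb x, Function.Injective (f.f p.1.1)) : Function.Injective (f.n x) := by
  intro m m' hm
  funext p
  exact h p (congrFun hm p)

theorem Hom.i_n {V W : PMod k Γ} (f : Hom V W) (x : X) (n : V.N x) :
    W.i x (f.n x n) = f.f x (V.i x n) := by
  rw [i_apply, i_apply, map_sum]
  exact Finset.sum_congr rfl fun p _ => (f.comm (Γ.symm p.2) (n p)).symm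

theorem Hom.n_j {V W : PMod k Γ} (f : Hom V W) (x : X) (v : V.V x) :
    f.n x (V.j x v) = W.j x (f.f x v) := by
  funext p
  exact f.comm p.2 v

theorem Hom.n_sg {V W : PMod k Γ} (f : Hom V W) {x y : X} {l : Λ} (v : V.V x) :
    f.n y (V.sg x y l v) = W.sg x y l (f.f x v) := by
  by_cases h : Γ.adj y x l = true
  · rw [sg_of V h, sg_of W h]
    funext p
    rw [Hom.n_apply]
    by_cases hp : p = ⟨(x, l), h⟩
    · subst hp; simp
    · rw [Pi.single_eq_of_ne hp, Pi.single_eq_of_ne hp, map_zero]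
  · simp [sg, h]

end PMod

end Vale.Agent.P203.Mod
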