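import Vale.Agent.P203.Mod.Basic

set_option linter.all false

namespace Vale.Agent.P203.Mod

variable {S X Λ : Type} [Fintype X] [DecidableEq X] [Fintype Λ] [DecidableEq Λ] [DecidableEq S]
variable {k : Type} [Field k] {Γ : FGraph S X Λ}

namespace PMod

/-- `(n, v) ↦ i n` over `s`, `(n, v) ↦ v` elsewhere. -/
def vmap (V : PMod k Γ) (s : S) (x : X) : (V.N x × V.V x) →ₗ[k] V.V x :=
  if Γ.π x = s then V.i x ∘ₗ LinearMap.fst k _ _ else LinearMap.snd k _ _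

/-- The relations defining `C_s`. -/
def Krel (V : PMod k Γ) (s : S) (x : X) : Submodule k (V.N x × V.V x) :=
  if Γ.π x = s then (LinearMap.range (V.j x)).prod ⊤ else (⊤ : Submodule k (V.N x)).prod ⊥

theorem mem_Krel_of_eq (V : PMod k Γ) {s : S} {x : X} (h : Γ.π x = s) (n : V.N x) (v : V.V x) :
    (n, v) ∈ V.Krel s x ↔ ∃ u, V.j x u = n := by
  simp [Krel, h]

theorem mem_Krel_of_ne (V : PMod k Γ) {s : S} {x : X} (h : Γ.π x ≠ s) (n : V.N x) (v : V.V x) :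
    (n, v) ∈ V.Krel s x ↔ v = 0 := by
  simp [Krel, h]

theorem Krel_le (V : PMod k Γ) (s : S) (x : X) : V.Krel s x ≤ LinearMap.ker (V.vmap s x) := by
  rintro ⟨n, v⟩ hnv
  rw [LinearMap.mem_ker]
  by_cases h : Γ.π x = s
  · obtain ⟨u, rfl⟩ := (V.mem_Krel_of_eq h _ _).1 hnv
    simp [vmap, h]
  · rw [V.mem_Krel_of_ne h] at hnv
    simp [vmap, h, hnv]

/-- The natural map `C_s V → V` at `x`. -/
def Cval (V : PMod k Γ) (s : S) (x : X) : ((V.N x × V.V x) ⧸ V.Krel s x) →ₗ[k] V.V x :=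
  (V.Krel s x).liftQ (V.vmap s x) (V.Krel_le s x)

/-- The map `V x → (C_s V) y` along the dart `(x, l, y)`. -/
def Cinc (V : PMod k Γ) (s : S) (x y : X) (l : Λ) : V.V x →ₗ[k] ((V.N y × V.V y) ⧸ V.Krel s y) :=
  (V.Krel s y).mkQ ∘ₗ (LinearMap.prod (V.sg x y l) (V.a x y l))

theorem vmap_of_eq (V : PMod k Γ) {s : S} {x : X} (h : Γ.π x = s) (z : V.N x × V.V x) :
    V.vmap s x z = V.i x z.1 := by
  simp [vmap, h]

theorem vmap_of_ne (V : PMod k Γ) {s : S} {x : X} (h : Γ.π x ≠ s) (z : V.N x × V.V x) :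
    V.vmap s x z = z.2 := by
  simp [vmap, h]

theorem Cval_mk (V : PMod k Γ) (s : S) (x : X) (z : V.N x × V.V x) :
    V.Cval s x ((V.Krel s x).mkQ z) = V.vmap s x z := rfl

theorem Cinc_apply (V : PMod k Γ) (s : S) (x y : X) (l : Λ) (v : V.V x) :
    V.Cinc s x y l v = (V.Krel s y).mkQ (V.sg x y l v, V.a x y l v) := rfl

theorem Cval_Cinc (V : PMod k Γ) (s : S) {x y : X} {l : Λ} (h : Γ.adj x y l = true) (v : V.V x) :
    V.Cval s y (V.Cinc s x y l v) = V.a x y l v := by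
  rw [Cinc_apply, Cval_mk]
  by_cases hy : Γ.π y = s
  · rw [V.vmap_of_eq hy, V.i_sg (Γ.symm h)]
  · rw [V.vmap_of_ne hy]

/-- The (simultaneous) reflection functor `C_s`: at the vertices `x` over `s`, the space `V_x` is
replaced by the cokernel of `j_x : V_x → N_x`. -/
def C (s : S) (V : PMod k Γ) : PMod k Γ where
  V x := (V.N x × V.V x) ⧸ V.Krel s x
  a x y l := V.Cinc s x y l ∘ₗ V.Cval s x
  rel x v := by
    have h1 : ∀ p : Γ.Nb x, (V.Cinc s p.1.1 x p.1.2 ∘ₗ V.Cval s p.1.1)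
        ((V.Cinc s x p.1.1 p.1.2 ∘ₗ V.Cval s x) v) =
        Submodule.Quotient.mk (V.sg p.1.1 x p.1.2 (V.j x (V.Cval s x v) p),
          V.a p.1.1 x p.1.2 (V.j x (V.Cval s x v) p)) := by
      intro p
      simp only [LinearMap.comp_apply]
      rw [V.Cval_Cinc s p.2]
      rfl
    simp only [h1]
    have h2 : ∀ w : V.N x, ∑ p : Γ.Nb x, (Submodule.Quotient.mk (V.sg p.1.1 x p.1.2 (w p),
          V.a p.1.1 x p.1.2 (w p)) : (V.N x × V.V x) ⧸ V.Krel s x) =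
          Submodule.Quotient.mk (w, V.i x w) := by
      intro w
      simp only [← Submodule.mkQ_apply]
      rw [← map_sum]
      congr 1
      rw [Prod.ext_iff]
      constructor
      · rw [Prod.fst_sum]
        exact V.sum_sg x w
      · rw [Prod.snd_sum]
        exact (V.i_apply x w).symm
    rw [h2, i_j, Submodule.Quotient.mk_eq_zero]
    by_cases hx : Γ.π x = s
    · exact (V.mem_Krel_of_eq hx _ _).2 ⟨_, rfl⟩
    · exact (V.mem_Krel_of_ne hx _ _).2 rfl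

/-- The quotient map `N_x × V_x → (C_s V)_x`. -/
def Cmk (V : PMod k Γ) (s : S) (x : X) : (V.N x × V.V x) →ₗ[k] (C s V).V x :=
  (V.Krel s x).mkQ

theorem Cmk_surj (V : PMod k Γ) (s : S) (x : X) : Function.Surjective (V.Cmk s x) :=
  Submodule.mkQ_surjective _

theorem Cmk_eq_zero (V : PMod k Γ) (s : S) (x : X) (z : V.N x × V.V x) :
    V.Cmk s x z = 0 ↔ z ∈ V.Krel s x :=
  Submodule.Quotient.mk_eq_zero _

theorem Cmk_eq (V : PMod k Γ) (s : S) (x : X) (z w : V.N x × V.V x) :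
    V.Cmk s x z = V.Cmk s x w ↔ z - w ∈ V.Krel s x := by
  rw [← sub_eq_zero, ← map_sub, Cmk_eq_zero]

/-- The natural homomorphism `C_s V → V`. -/
def Cnat (V : PMod k Γ) (s : S) : Hom (C s V) V where
  f x := V.Cval s x
  comm {x y l} h v := V.Cval_Cinc s h (V.Cval s x v)

theorem Cnat_mk (V : PMod k Γ) (s : S) (x : X) (z : V.N x × V.V x) :
    (V.Cnat s).f x (V.Cmk s x z) = V.vmap s x z := rfl

theorem C_a_mk (V : PMod k Γ) (s : S) (x y : X) (l : Λ) (z : V.N x × V.V x) :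
    (C s V).a x y l (V.Cmk s x z) =
      V.Cmk s y (V.sg x y l (V.vmap s x z), V.a x y l (V.vmap s x z)) := rfl

theorem C_a_apply (V : PMod k Γ) (s : S) (x y : X) (l : Λ) (v : (C s V).V x) :
    (C s V).a x y l v = V.Cmk s y (V.sg x y l ((V.Cnat s).f x v), V.a x y l ((V.Cnat s).f x v)) :=
  rfl

/-- The projection `N_x → (C_s V)_x` (meaningful over `s`). -/
def Cpr (V : PMod k Γ) (s : S) (x : X) : V.N x →ₗ[k] (C s V).V x :=
  V.Cmk s x ∘ₗ LinearMap.inl k _ _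

/-- The identification `V_x → (C_s V)_x` (meaningful off `s`). -/
def Cin (V : PMod k Γ) (s : S) (x : X) : V.V x →ₗ[k] (C s V).V x :=
  V.Cmk s x ∘ₗ LinearMap.inr k _ _

theorem Cpr_def (V : PMod k Γ) (s : S) (x : X) (n : V.N x) :
    V.Cpr s x n = V.Cmk s x (n, 0) := rfl

theorem Cin_def (V : PMod k Γ) (s : S) (x : X) (v : V.V x) :
    V.Cin s x v = V.Cmk s x (0, v) := rfl

theorem Cmk_of_eq (V : PMod k Γ) {s : S} {x : X} (h : Γ.π x = s) (n : V.N x) (v : V.V x) :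
    V.Cmk s x (n, v) = V.Cpr s x n := by
  rw [Cpr_def, Cmk_eq]
  have : (n, v) - (n, (0 : V.V x)) = (0, v) := by simp
  rw [this, V.mem_Krel_of_eq h]
  exact ⟨0, map_zero _⟩

theorem Cmk_of_ne (V : PMod k Γ) {s : S} {x : X} (h : Γ.π x ≠ s) (n : V.N x) (v : V.V x) :
    V.Cmk s x (n, v) = V.Cin s x v := by
  rw [Cin_def, Cmk_eq]
  have : (n, v) - ((0 : V.N x), v) = (n, 0) := by simp
  rw [this, V.mem_Krel_of_ne h]

theorem Cpr_surj (V : PMod k Γ) {s : S} {x : X} (h : Γ.π x = s) :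
    Function.Surjective (V.Cpr s x) := by
  intro u
  obtain ⟨⟨n, v⟩, rfl⟩ := V.Cmk_surj s x u
  exact ⟨n, (V.Cmk_of_eq h n v).symm⟩

theorem Cpr_eq_zero (V : PMod k Γ) {s : S} {x : X} (h : Γ.π x = s) (n : V.N x) :
    V.Cpr s x n = 0 ↔ ∃ u, V.j x u = n := by
  rw [Cpr_def, Cmk_eq_zero]
  exact V.mem_Krel_of_eq h _ _

theorem Cin_bij (V : PMod k Γ) {s : S} {x : X} (h : Γ.π x ≠ s) :
    Function.Bijective (V.Cin s x) := by
  constructor
  · rw [injective_iff_map_eq_zero]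
    intro v hv
    rw [Cin_def, Cmk_eq_zero] at hv
    exact (V.mem_Krel_of_ne h _ _).1 hv
  · intro u
    obtain ⟨⟨n, v⟩, rfl⟩ := V.Cmk_surj s x u
    exact ⟨v, (V.Cmk_of_ne h n v).symm⟩

theorem C_a_of_eq (V : PMod k Γ) {s : S} {x y : X} (hy : Γ.π y = s) (l : Λ) (v : (C s V).V x) :
    (C s V).a x y l v = V.Cpr s y (V.sg x y l ((V.Cnat s).f x v)) := by
  rw [C_a_apply, V.Cmk_of_eq hy]

theorem C_a_of_ne (V : PMod k Γ) {s : S} {x y : X} (hy : Γ.π y ≠ s) (l : Λ) (v : (C s V).V x) :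
    (C s V).a x y l v = V.Cin s y (V.a x y l ((V.Cnat s).f x v)) := by
  rw [C_a_apply, V.Cmk_of_ne hy]

theorem Cnat_Cpr (V : PMod k Γ) {s : S} {x : X} (h : Γ.π x = s) (n : V.N x) :
    (V.Cnat s).f x (V.Cpr s x n) = V.i x n := by
  rw [Cpr_def, Cnat_mk, V.vmap_of_eq h]

theorem Cnat_Cin (V : PMod k Γ) {s : S} {x : X} (h : Γ.π x ≠ s) (v : V.V x) :
    (V.Cnat s).f x (V.Cin s x v) = v := by
  rw [Cin_def, Cnat_mk, V.vmap_of_ne h]

/-- Functoriality of `C_s`. -/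
def Cmap (s : S) {V W : PMod k Γ} (f : Hom V W) : Hom (C s V) (C s W) where
  f x := (V.Krel s x).mapQ (W.Krel s x) (LinearMap.prodMap (f.n x) (f.f x)) (by
    rintro ⟨n, v⟩ hnv
    rw [Submodule.mem_comap, LinearMap.prodMap_apply]
    by_cases h : Γ.π x = s
    · obtain ⟨u, rfl⟩ := (V.mem_Krel_of_eq h _ _).1 hnv
      exact (W.mem_Krel_of_eq h _ _).2 ⟨f.f x u, (f.n_j x u).symm⟩
    · rw [V.mem_Krel_of_ne h] at hnv
      exact (W.mem_Krel_of_ne h _ _).2 (by simp [hnv]))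
  comm {x y l} h v := by
    obtain ⟨⟨n, v⟩, rfl⟩ := V.Cmk_surj s x v
    have key : ∀ (n : V.N x) (v : V.V x),
        W.vmap s x (f.n x n, f.f x v) = f.f x (V.vmap s x (n, v)) := by
      intro n v
      by_cases hx : Γ.π x = s
      · rw [W.vmap_of_eq hx, V.vmap_of_eq hx, f.i_n]
      · rw [W.vmap_of_ne hx, V.vmap_of_ne hx]
    rw [C_a_mk]
    change W.Cmk s y (f.n y (V.sg x y l (V.vmap s x (n, v))), f.f y (V.a x y l (V.vmap s x (n, v))))
      = (C s W).a x y l (W.Cmk s x (f.n x n, f.f x v))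
    rw [C_a_mk, key, f.n_sg, f.comm h]

theorem Cmap_mk (s : S) {V W : PMod k Γ} (f : Hom V W) (x : X) (n : V.N x) (v : V.V x) :
    (Cmap s f).f x (V.Cmk s x (n, v)) = W.Cmk s x (f.n x n, f.f x v) := rfl

theorem Cmap_Cpr (s : S) {V W : PMod k Γ} (f : Hom V W) (x : X) (n : V.N x) :
    (Cmap s f).f x (V.Cpr s x n) = W.Cpr s x (f.n x n) := by
  rw [Cpr_def, Cpr_def, Cmap_mk, map_zero]

theorem Cmap_Cin (s : S) {V W : PMod k Γ} (f : Hom V W) (x : X) (v : V.V x) :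
    (Cmap s f).f x (V.Cin s x v) = W.Cin s x (f.f x v) := by
  rw [Cin_def, Cin_def, Cmap_mk, map_zero]

/-- `C_s` preserves surjections. -/
theorem Cmap_surj (s : S) {V W : PMod k Γ} {f : Hom V W} (hf : f.Surj) : (Cmap s f).Surj := by
  intro x u
  by_cases h : Γ.π x = s
  · obtain ⟨n, rfl⟩ := W.Cpr_surj h u
    obtain ⟨m, rfl⟩ := f.n_surj x (fun p => hf p.1.1) n
    exact ⟨_, Cmap_Cpr s f x m⟩
  · obtain ⟨v, rfl⟩ := (W.Cin_bij h).2 u
    obtain ⟨w, rfl⟩ := hf x v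
    exact ⟨_, Cmap_Cin s f x w⟩

/-- `C_s` preserves bijections. -/
theorem Cmap_bij (s : S) {V W : PMod k Γ} {f : Hom V W} (hf : f.Bij) : (Cmap s f).Bij := by
  intro x
  refine ⟨?_, Cmap_surj s hf.surj x⟩
  rw [injective_iff_map_eq_zero]
  intro u hu
  by_cases h : Γ.π x = s
  · obtain ⟨n, rfl⟩ := V.Cpr_surj h u
    rw [Cmap_Cpr, W.Cpr_eq_zero h] at hu
    obtain ⟨w, hw⟩ := hu
    obtain ⟨v, rfl⟩ := (hf x).2 w
    rw [V.Cpr_eq_zero h]
    refine ⟨v, f.n_inj x (fun p => (hf p.1.1).1) ?_⟩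
    rw [f.n_j, hw]
  · obtain ⟨v, rfl⟩ := (V.Cin_bij h).2 u
    rw [Cmap_Cin] at hu
    have h0 : f.f x v = 0 := (W.Cin_bij h).1 (by rw [hu, map_zero])
    have : v = 0 := (hf x).1 (by rw [h0, map_zero])
    rw [this, map_zero]

theorem Isom.C (s : S) {V W : PMod k Γ} (h : Isom V W) : Isom (PMod.C s V) (PMod.C s W) := by
  obtain ⟨f, hf⟩ := h
  exact ⟨Cmap s f, Cmap_bij s hf⟩

/-- `i` is surjective on `C_s V` over `s`. -/
theorem C_i_surj (V : PMod k Γ) {s : S} {x : X} (h : Γ.π x = s) :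
    Function.Surjective ((C s V).i x) := by
  intro u
  obtain ⟨n, rfl⟩ := V.Cpr_surj h u
  have hne : ∀ p : Γ.Nb x, Γ.π p.1.1 ≠ s := fun p hp => Γ.indep p.2 (h.trans hp.symm)
  refine ⟨fun p => V.Cin s p.1.1 (n p), ?_⟩
  rw [i_apply]
  have h1 : ∀ p : Γ.Nb x, (C s V).a p.1.1 x p.1.2 (V.Cin s p.1.1 (n p)) =
      V.Cpr s x (V.sg p.1.1 x p.1.2 (n p)) := by
    intro p
    rw [C_a_of_eq V h, V.Cnat_Cin (hne p)]
  simp only [h1]
  rw [← map_sum, V.sum_sg]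

end PMod

end Vale.Agent.P203.Mod
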