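import Vale.Agent.P203.Mod.CFun

set_option linter.all false

namespace Vale.Agent.P203.Mod

variable {S X Λ : Type} [Fintype X] [DecidableEq X] [Fintype Λ] [DecidableEq Λ] [DecidableEq S]
variable {k : Type} [Field k] {Γ : FGraph S X Λ}

namespace PMod

/-- finite-dimensional modules -/
class FD (V : PMod k Γ) : Prop where
  out : ∀ x, Module.Finite k (V.V x)

instance (V : PMod k Γ) [V.FD] (x : X) : Module.Finite k (V.V x) := FD.out x

theorem FD.of_isom {V W : PMod k Γ} (h : Isom V W) (hV : V.FD) : W.FD := by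
  obtain ⟨f, hf⟩ := h
  exact ⟨fun x => Module.Finite.of_surjective (f.f x) (hf x).2⟩

theorem FD.of_surj {V W : PMod k Γ} [hV : V.FD] {f : Hom V W} (hf : f.Surj) : W.FD :=
  ⟨fun x => Module.Finite.of_surjective (f.f x) (hf x)⟩

theorem FD.of_inj {V W : PMod k Γ} [hW : W.FD] {f : Hom V W} (hf : f.Inj) : V.FD :=
  ⟨fun x => Module.Finite.of_injective (f.f x) (hf x)⟩

instance (V : PMod k Γ) [V.FD] (s : S) : (C s V).FD :=
  ⟨fun x => Module.Finite.of_surjective (V.Cmk s x) (V.Cmk_surj s x)⟩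

/-- the dimension of `V_x` -/
noncomputable def dim (V : PMod k Γ) (x : X) : ℕ := Module.finrank k (V.V x)

theorem dim_eq_of_isom {V W : PMod k Γ} (h : Isom V W) (x : X) : V.dim x = W.dim x := by
  obtain ⟨f, hf⟩ := h
  exact (LinearEquiv.ofBijective (f.f x) (hf x)).finrank_eq

theorem dim_le_of_surj {V W : PMod k Γ} [V.FD] {f : Hom V W} (hf : f.Surj) (x : X) :
    W.dim x ≤ V.dim x := LinearMap.finrank_le_finrank_of_surjective (hf x)

theorem dim_le_of_inj {V W : PMod k Γ} [W.FD] {f : Hom V W} (hf : f.Inj) (x : X) :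
    V.dim x ≤ W.dim x := LinearMap.finrank_le_finrank_of_injective (hf x)

theorem dim_eq_zero_iff (V : PMod k Γ) [V.FD] (x : X) : V.dim x = 0 ↔ Subsingleton (V.V x) :=
  Module.finrank_eq_zero_iff_of_free k (V.V x)

theorem finrank_N (V : PMod k Γ) [V.FD] (x : X) :
    Module.finrank k (V.N x) = ∑ p : Γ.Nb x, V.dim p.1.1 :=
  Module.finrank_pi_fintype k

theorem dim_C_of_ne (V : PMod k Γ) {s : S} {x : X} (h : Γ.π x ≠ s) : (C s V).dim x = V.dim x :=
  (LinearEquiv.ofBijective (V.Cin s x) (V.Cin_bij h)).finrank_eq.symm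

/-- (F1), exact form. -/
theorem dim_C_of_eq (V : PMod k Γ) [V.FD] {s : S} {x : X} (h : Γ.π x = s) :
    (C s V).dim x + V.dim x =
      ∑ p : Γ.Nb x, V.dim p.1.1 + Module.finrank k (LinearMap.ker (V.j x)) := by
  have h1 := LinearMap.finrank_range_add_finrank_ker (V.Cpr s x)
  have h2 := LinearMap.finrank_range_add_finrank_ker (V.j x)
  have h3 : LinearMap.ker (V.Cpr s x) = LinearMap.range (V.j x) := by
    ext n
    rw [LinearMap.mem_ker, V.Cpr_eq_zero h, LinearMap.mem_range]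
  have h4 : LinearMap.range (V.Cpr s x) = ⊤ := LinearMap.range_eq_top.2 (V.Cpr_surj h)
  rw [h3, h4, finrank_top] at h1
  rw [← finrank_N, ← h1]
  unfold dim
  omega

/-- (F1). -/
theorem le_dim_C_of_eq (V : PMod k Γ) [V.FD] {s : S} {x : X} (h : Γ.π x = s) :
    ∑ p : Γ.Nb x, V.dim p.1.1 ≤ (C s V).dim x + V.dim x := by
  rw [V.dim_C_of_eq h]
  omega

end PMod

end Vale.Agent.P203.Mod
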