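import Vale.Agent.P203.Mod.Dim
import Vale.Agent.P203.Mod.Kill

set_option linter.all false

namespace Vale.Agent.P203.Mod



variable {S X Λ : Type} [Fintype X] [DecidableEq X] [Fintype Λ] [DecidableEq Λ] [DecidableEq S]
variable {k : Type} [Field k] {Γ : FGraph S X Λ}

namespace PMod

/-- The natural map `C_s V → V` is surjective if `i` is surjective over `s`. -/
theorem Cnat_surj (V : PMod k Γ) (s : S) (h : ∀ x, Γ.π x = s → Function.Surjective (V.i x)) :
    (V.Cnat s).Surj := by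
  intro x v
  by_cases hx : Γ.π x = s
  · obtain ⟨n, rfl⟩ := h x hx v
    exact ⟨V.Cpr s x n, V.Cnat_Cpr hx n⟩
  · exact ⟨V.Cin s x v, V.Cnat_Cin hx v⟩

/-- (F2): there is a surjective homomorphism `C_s C_s V → C_s V`. -/
theorem CC_surj (V : PMod k Γ) (s : S) : ((C s V).Cnat s).Surj :=
  Cnat_surj _ s fun _ hx => V.C_i_surj hx

/-- The module `V` is zero. -/
def IsZero (V : PMod k Γ) : Prop := ∀ x (v : V.V x), v = 0

theorem isZero_iff_dim (V : PMod k Γ) [V.FD] : V.IsZero ↔ ∀ x, V.dim x = 0 := by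
  constructor
  · intro h x
    rw [dim_eq_zero_iff]
    exact ⟨fun a b => by rw [h x a, h x b]⟩
  · intro h x v
    have := (V.dim_eq_zero_iff x).1 (h x)
    exact Subsingleton.elim _ _

theorem IsZero.of_isom {V W : PMod k Γ} (h : Isom V W) (hV : V.IsZero) : W.IsZero := by
  obtain ⟨f, hf⟩ := h
  intro x w
  obtain ⟨v, rfl⟩ := (hf x).2 w
  rw [hV x v, map_zero]

theorem IsZero.of_surj {V W : PMod k Γ} (f : Hom V W) (hf : f.Surj) (hV : V.IsZero) :
    W.IsZero := by
  intro x w
  obtain ⟨v, rfl⟩ := hf x w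
  rw [hV x v, map_zero]

theorem IsZero.C {V : PMod k Γ} (h : V.IsZero) (s : S) : (PMod.C s V).IsZero := by
  intro x v
  obtain ⟨⟨n, w⟩, rfl⟩ := V.Cmk_surj s x v
  have h1 : n = 0 := funext fun p => h _ (n p)
  rw [h1, h x w]
  exact map_zero _

/-- The socle series. -/
abbrev Z (V : PMod k Γ) (m : ℕ) (x : X) : Submodule k (V.V x) := killSub Γ V.a m x

theorem mem_Z_zero (V : PMod k Γ) (x : X) (v : V.V x) : v ∈ V.Z 0 x ↔ v = 0 := Iff.rfl

theorem mem_Z_succ (V : PMod k Γ) (m : ℕ) (x : X) (v : V.V x) :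
    v ∈ V.Z (m + 1) x ↔ ∀ y l, Γ.adj x y l = true → V.a x y l v ∈ V.Z m y :=
  ⟨fun h y l hl => h ⟨(y, l), hl⟩, fun h p => h p.1.1 p.1.2 p.2⟩

theorem Z_le_succ (V : PMod k Γ) (m : ℕ) (x : X) : V.Z m x ≤ V.Z (m + 1) x :=
  fun _ hv => Kill.succ hv

theorem Z_mono (V : PMod k Γ) {m n : ℕ} (h : m ≤ n) (x : X) : V.Z m x ≤ V.Z n x :=
  fun _ hv => Kill.mono h hv

theorem Z_C (V : PMod k Γ) (s : S) (m : ℕ) : ∀ x, Γ.π x ≠ s → ∀ v : V.V x, v ∈ V.Z m x →
    V.Cin s x v ∈ (C s V).Z (2 * m) x := by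
  induction m with
  | zero =>
    intro x hx v hv
    rw [mem_Z_zero] at hv
    rw [hv, map_zero]
    exact Submodule.zero_mem _
  | succ m ih =>
    intro x hx v hv
    rw [mem_Z_succ] at hv
    have h2 : 2 * (m + 1) = (2 * m + 1) + 1 := by ring
    rw [h2, mem_Z_succ]
    intro y l hl
    by_cases hy : Γ.π y = s
    · rw [V.C_a_of_eq hy, V.Cnat_Cin hx, mem_Z_succ]
      intro z l' hl'
      have hz : Γ.π z ≠ s := fun h => Γ.indep hl' (hy.trans h.symm)
      rw [V.C_a_of_ne hz, V.Cnat_Cpr hy, V.i_sg (Γ.symm hl)]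
      refine ih z hz _ ?_
      have h3 := hv y l hl
      have h4 := V.Z_le_succ m y h3
      rw [mem_Z_succ] at h4
      exact h4 z l' hl'
    · rw [V.C_a_of_ne hy, V.Cnat_Cin hx]
      exact Z_le_succ _ _ _ (ih y hy _ (hv y l hl))

theorem Nilp.C {V : PMod k Γ} (h : V.Nilp) (s : S) : (PMod.C s V).Nilp := by
  obtain ⟨m, hm⟩ := h
  refine ⟨2 * m + 1, fun x v => ?_⟩
  by_cases hx : Γ.π x = s
  · obtain ⟨n, rfl⟩ := V.Cpr_surj hx v
    change V.Cpr s x n ∈ (PMod.C s V).Z (2 * m + 1) x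
    rw [mem_Z_succ]
    intro z l' hl'
    have hz : Γ.π z ≠ s := fun h => Γ.indep hl' (hx.trans h.symm)
    rw [V.C_a_of_ne hz, V.Cnat_Cpr hx]
    exact Z_C V s m z hz _ (hm z _)
  · obtain ⟨w, rfl⟩ := (V.Cin_bij hx).2 v
    exact Z_le_succ _ _ _ (Z_C V s m x hx w (hm x w))

/-- A nonzero nilpotent module has a vertex where `i` is not surjective. -/
theorem Nilp.exists_top {V : PMod k Γ} (h : V.Nilp) (hV : ¬ V.IsZero) :
    ∃ x, ¬ Function.Surjective (V.i x) := by
  by_contra hcon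
  push Not at hcon
  obtain ⟨m, hm⟩ := h
  induction m with
  | zero =>
    exact hV fun x v => (V.mem_Z_zero x v).1 (hm x v)
  | succ m ih =>
    refine ih fun x v => ?_
    obtain ⟨n, rfl⟩ := hcon x v
    change V.i x n ∈ V.Z m x
    rw [i_apply]
    refine Submodule.sum_mem _ fun p _ => ?_
    have h1 : n p ∈ V.Z (m + 1) p.1.1 := hm p.1.1 (n p)
    rw [mem_Z_succ] at h1
    exact h1 x p.1.2 (Γ.symm p.2)

/-- A nonzero nilpotent module has a vertex where `j` is not injective. -/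
theorem Nilp.exists_soc {V : PMod k Γ} (h : V.Nilp) (hV : ¬ V.IsZero) :
    ∃ x, ∃ v : V.V x, v ≠ 0 ∧ ∀ y l, Γ.adj x y l = true → V.a x y l v = 0 := by
  by_contra hcon
  push Not at hcon
  have h1 : ∀ m x (v : V.V x), v ∈ V.Z m x → v = 0 := by
    intro m
    induction m with
    | zero => exact fun x v hv => (V.mem_Z_zero x v).1 hv
    | succ m ih =>
      intro x v hv
      by_contra hv0
      obtain ⟨y, l, hl, hne⟩ := hcon x v hv0
      rw [mem_Z_succ] at hv
      exact hne (ih y _ (hv y l hl))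
  obtain ⟨m, hm⟩ := h
  exact hV fun x v => h1 m x v (hm x v)

/-- The support of `V` lies over `U`. -/
def Supp (V : PMod k Γ) (U : Set S) : Prop := ∀ x, Γ.π x ∉ U → ∀ v : V.V x, v = 0

theorem Supp.C {V : PMod k Γ} {U : Set S} (h : V.Supp U) {s : S} (hs : s ∈ U) :
    (PMod.C s V).Supp U := by
  intro x hx v
  have hxs : Γ.π x ≠ s := fun h' => hx (h' ▸ hs)
  obtain ⟨w, rfl⟩ := (V.Cin_bij hxs).2 v
  have hw : w = 0 := h x hx w
  rw [hw, map_zero]

theorem Supp.of_surj {V W : PMod k Γ} {U : Set S} {f : Hom V W} (hf : f.Surj) (h : V.Supp U) :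
    W.Supp U := by
  intro x hx w
  obtain ⟨v, rfl⟩ := hf x w
  have hv : v = 0 := h x hx v
  rw [hv, map_zero]

theorem Supp.of_inj {V W : PMod k Γ} {U : Set S} {f : Hom V W} (hf : f.Inj) (h : W.Supp U) :
    V.Supp U := by
  intro x hx v
  have hv : f.f x v = 0 := h x hx _
  exact hf x (by rw [hv, map_zero])

theorem Supp.mono {V : PMod k Γ} {U U' : Set S} (h : V.Supp U) (hU : U ⊆ U') : V.Supp U' :=
  fun x hx => h x fun h' => hx (hU h')

/-- `k` at `x`, zero elsewhere. -/
def simS (k : Type) [Field k] (x y : X) : Submodule k k := if y = x then ⊤ else ⊥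

theorem finrank_simS (x y : X) : Module.finrank k (simS k x y) = if y = x then 1 else 0 := by
  by_cases h : y = x
  · have : simS k x y = ⊤ := if_pos h
    rw [this, if_pos h, finrank_top, Module.finrank_self]
  · have : simS k x y = ⊥ := if_neg h
    rw [this, if_neg h, finrank_bot]

/-- The simple module at the vertex `x`. -/
def sim (k : Type) [Field k] (Γ : FGraph S X Λ) (x : X) : PMod k Γ where
  V y := ↥(simS k x y)
  a _ _ _ := 0
  rel _ _ := by simp

/-- the inclusion into `k` -/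
def simVal (k : Type) [Field k] (Γ : FGraph S X Λ) (x y : X) : (sim k Γ x).V y →ₗ[k] k :=
  (simS k x y).subtype

theorem simVal_inj (x y : X) : Function.Injective (simVal k Γ x y) := Subtype.val_injective

theorem simVal_self_surj (x : X) : Function.Surjective (simVal k Γ x x) := fun c =>
  ⟨⟨c, by unfold simS; rw [if_pos rfl]; exact Submodule.mem_top⟩, rfl⟩

theorem sim_a (x y z : X) (l : Λ) (v) : (sim k Γ x).a y z l v = 0 := rfl

instance sim_fd (x : X) : (sim k Γ x).FD :=
  ⟨fun y => Module.Finite.of_injective (simVal k Γ x y) (simVal_inj x y)⟩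

theorem sim_nilp (x : X) : (sim k Γ x).Nilp := ⟨1, fun y v => by
  change v ∈ (sim k Γ x).Z 1 y
  rw [mem_Z_succ]
  intro z l _
  rw [sim_a]
  exact Submodule.zero_mem _⟩

theorem sim_dim (x y : X) : (sim k Γ x).dim y = if y = x then 1 else 0 := finrank_simS x y

theorem sim_eq_zero {x y : X} (h : y ≠ x) (v : (sim k Γ x).V y) : v = 0 := by
  have h1 : (sim k Γ x).dim y = 0 := by rw [sim_dim, if_neg h]
  have := ((sim k Γ x).dim_eq_zero_iff y).1 h1
  exact Subsingleton.elim _ _

theorem sim_supp (x : X) : (sim k Γ x).Supp {Γ.π x} := by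
  intro y hy v
  exact sim_eq_zero (fun h => hy (by rw [h]; rfl)) v

theorem sim_not_zero (x : X) : ¬ (sim k Γ x).IsZero := by
  rw [isZero_iff_dim]
  intro h
  have := h x
  rw [sim_dim, if_pos rfl] at this
  exact one_ne_zero this

/-- Homomorphisms to `S_x` from functionals. -/
def toSim (V : PMod k Γ) (x : X) (φ : V.V x →ₗ[k] k)
    (hφ : ∀ y l, Γ.adj y x l = true → ∀ v : V.V y, φ (V.a y x l v) = 0) :
    Hom V (sim k Γ x) where
  f y := LinearMap.codRestrict (simS k x y)
    (Function.update (fun y => (0 : V.V y →ₗ[k] k)) x φ y) (fun v => by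
      unfold simS
      by_cases hy : y = x
      · rw [if_pos hy]; exact Submodule.mem_top
      · rw [if_neg hy, Function.update_of_ne hy]; exact Submodule.zero_mem _)
  comm {y z l} hl v := by
    rw [sim_a]
    apply Subtype.ext
    change Function.update (fun y => (0 : V.V y →ₗ[k] k)) x φ z (V.a y z l v) = 0
    by_cases hz : z = x
    · subst hz
      rw [Function.update_self]
      exact hφ y l hl v
    · rw [Function.update_of_ne hz]; rfl

theorem toSim_val (V : PMod k Γ) (x : X) (φ : V.V x →ₗ[k] k)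
    (hφ : ∀ y l, Γ.adj y x l = true → ∀ v : V.V y, φ (V.a y x l v) = 0) (v : V.V x) :
    simVal k Γ x x ((V.toSim x φ hφ).f x v) = φ v := by
  change Function.update (fun y => (0 : V.V y →ₗ[k] k)) x φ x v = φ v
  rw [Function.update_self]

/-- If `i_x` is not surjective, then `S_x` is a quotient of `V`. -/
theorem exists_hom_sim {V : PMod k Γ} {x : X} (h : ¬ Function.Surjective (V.i x)) :
    ∃ f : Hom V (sim k Γ x), f.Surj := by
  have h1 : LinearMap.range (V.i x) < ⊤ :=
    lt_top_iff_ne_top.2 fun h' => h (LinearMap.range_eq_top.1 h')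
  obtain ⟨φ, hφ0, hφ⟩ := Submodule.exists_le_ker_of_lt_top _ h1
  have hφ' : ∀ y l, Γ.adj y x l = true → ∀ v : V.V y, φ (V.a y x l v) = 0 := by
    intro y l hl v
    have : V.a y x l v ∈ LinearMap.ker φ := hφ ⟨V.sg y x l v, V.i_sg (Γ.symm hl) v⟩
    exact this
  refine ⟨V.toSim x φ hφ', ?_⟩
  intro y w
  by_cases hy : y = x
  · subst hy
    obtain ⟨v, hv⟩ := LinearMap.surjective hφ0 (simVal k Γ y y w)
    refine ⟨v, simVal_inj y y ?_⟩
    rw [toSim_val, hv]
  · exact ⟨0, by rw [map_zero, sim_eq_zero hy w]⟩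

/-- Homomorphisms from `S_x`. -/
def ofSim (V : PMod k Γ) (x : X) (v : V.V x)
    (h : ∀ y l, Γ.adj x y l = true → V.a x y l v = 0) : Hom (sim k Γ x) V where
  f y := (Function.update (fun y => (0 : k →ₗ[k] V.V y)) x (LinearMap.toSpanSingleton k _ v) y) ∘ₗ
    simVal k Γ x y
  comm {y z l} hl c := by
    rw [sim_a, map_zero, LinearMap.comp_apply]
    by_cases hy : y = x
    · subst hy
      rw [Function.update_self, LinearMap.toSpanSingleton_apply, map_smul, h z l hl, smul_zero]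
    · rw [Function.update_of_ne hy]
      simp

theorem ofSim_f (V : PMod k Γ) (x : X) (v : V.V x)
    (h : ∀ y l, Γ.adj x y l = true → V.a x y l v = 0) (c : (sim k Γ x).V x) :
    (V.ofSim x v h).f x c = simVal k Γ x x c • v := by
  change (Function.update (fun y => (0 : k →ₗ[k] V.V y)) x (LinearMap.toSpanSingleton k _ v) x)
    (simVal k Γ x x c) = _
  rw [Function.update_self, LinearMap.toSpanSingleton_apply]

/-- If some nonzero vector at `x` is killed by all maps, then `S_x` is a submodule of `V`. -/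
theorem exists_sim_hom {V : PMod k Γ} {x : X} {v : V.V x} (hv : v ≠ 0)
    (h : ∀ y l, Γ.adj x y l = true → V.a x y l v = 0) :
    ∃ f : Hom (sim k Γ x) V, f.Inj := by
  refine ⟨V.ofSim x v h, ?_⟩
  intro y c d hcd
  by_cases hy : y = x
  · subst hy
    rw [ofSim_f, ofSim_f] at hcd
    exact simVal_inj y y (smul_left_injective k hv hcd)
  · rw [sim_eq_zero hy c, sim_eq_zero hy d]

end PMod

end Vale.Agent.P203.Mod
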