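import Vale.Agent.P203.Mod.Dim
import Vale.Agent.P203.Cox0.GeomRep

/-!
# Weighted dimension vectors

`Γ` is folded over a type `C` of colours, `ι : S → C` embeds the Coxeter generators; the vertices
whose colour is not in the range of `ι` are the framing vertices.
-/

set_option linter.all false

namespace Vale.Agent.P203.Mod

open Vale.Agent.P203.Cox

variable {S C X Λ : Type} [Fintype X] [DecidableEq X] [Fintype Λ] [DecidableEq Λ]
  [DecidableEq C] [Fintype S] [DecidableEq S]
variable {k : Type} [Field k] {Γ : FGraph C X Λ} {ι : S → C} {M : CoxeterMatrix S}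

/-- Weights on the vertices of `Γ` which fold `Γ` to the geometric representation of `M`. -/
structure Weights (Γ : FGraph C X Λ) (ι : S → C) (M : CoxeterMatrix S) where
  inj : Function.Injective ι
  /-- the weights -/
  η : X → ℝ
  pos : ∀ x, 0 < η x
  eig : ∀ (s t : S), s ≠ t → ∀ y : X, Γ.π y = ι t →
    ∑ x : X, ∑ l : Λ, (if Γ.π x = ι s ∧ Γ.adj x y l = true then η x else 0) =
      - gram M s t * η y

/-- the weighted dimension vector -/
noncomputable def dv (E : Weights Γ ι M) (V : PMod k Γ) : VSp S :=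
  Finsupp.equivFunOnFinite.symm fun s => ∑ x : X, if Γ.π x = ι s then E.η x * V.dim x else 0

theorem dv_apply (E : Weights Γ ι M) (V : PMod k Γ) (s : S) :
    dv E V s = ∑ x : X, if Γ.π x = ι s then E.η x * V.dim x else 0 := rfl

theorem dv_nonneg (E : Weights Γ ι M) (V : PMod k Γ) (s : S) : 0 ≤ dv E V s := by
  rw [dv_apply]
  refine Finset.sum_nonneg fun x _ => ?_
  split_ifs
  · exact mul_nonneg (E.pos x).le (Nat.cast_nonneg _)
  · exact le_rfl

theorem NN_dv (E : Weights Γ ι M) (V : PMod k Γ) : NN (dv E V) := fun s => dv_nonneg E V s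

theorem dv_eq_zero_iff (E : Weights Γ ι M) (V : PMod k Γ) (s : S) :
    dv E V s = 0 ↔ ∀ x, Γ.π x = ι s → V.dim x = 0 := by
  rw [dv_apply, Finset.sum_eq_zero_iff_of_nonneg]
  · constructor
    · intro h x hx
      have := h x (Finset.mem_univ _)
      rw [if_pos hx, mul_eq_zero] at this
      rcases this with h' | h'
      · exact absurd h' (E.pos x).ne'
      · exact_mod_cast h'
    · intro h x _
      split_ifs with hx
      · rw [h x hx]; simp
      · rfl
  · intro x _
    split_ifs
    · exact mul_nonneg (E.pos x).le (Nat.cast_nonneg _)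
    · exact le_rfl

theorem dv_mono (E : Weights Γ ι M) {V W : PMod k Γ} (h : ∀ x, V.dim x ≤ W.dim x) (s : S) :
    dv E V s ≤ dv E W s := by
  rw [dv_apply, dv_apply]
  refine Finset.sum_le_sum fun x _ => ?_
  split_ifs
  · exact mul_le_mul_of_nonneg_left (by exact_mod_cast h x) (E.pos x).le
  · exact le_rfl

theorem dv_congr (E : Weights Γ ι M) {V W : PMod k Γ} (h : ∀ x, V.dim x = W.dim x) :
    dv E V = dv E W := by
  ext s
  exact le_antisymm (dv_mono E (fun x => (h x).le) s) (dv_mono E (fun x => (h x).ge) s)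

theorem form_single_eq_sum (s : S) (v : VSp S) :
    form M (Finsupp.single s 1) v = ∑ t : S, gram M s t * v t := by
  have h : v = ∑ t : S, Finsupp.single t (v t) := (Finsupp.univ_sum_single v).symm
  conv_lhs => rw [h, map_sum]
  refine Finset.sum_congr rfl fun t _ => ?_
  rw [form_single]
  ring

/-- the weighted defect of injectivity of `j` over `ι s` -/
noncomputable def kapj (E : Weights Γ ι M) (V : PMod k Γ) (s : S) : ℝ :=
  ∑ x : X, if Γ.π x = ι s then E.η x * Module.finrank k (LinearMap.ker (V.j x)) else 0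

theorem kapj_nonneg (E : Weights Γ ι M) (V : PMod k Γ) (s : S) : 0 ≤ kapj E V s := by
  refine Finset.sum_nonneg fun x _ => ?_
  split_ifs
  · exact mul_nonneg (E.pos x).le (Nat.cast_nonneg _)
  · exact le_rfl

theorem kapj_eq_zero (E : Weights Γ ι M) (V : PMod k Γ) (s : S)
    (h : ∀ x, Γ.π x = ι s → Function.Injective (V.j x)) : kapj E V s = 0 := by
  refine Finset.sum_eq_zero fun x _ => ?_
  split_ifs with hx
  · rw [LinearMap.ker_eq_bot.2 (h x hx), finrank_bot]; simp
  · rfl

/-- the framing contribution at `s` -/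
noncomputable def frc (E : Weights Γ ι M) (V : PMod k Γ) (s : S) : ℝ :=
  ∑ y : X, if (∃ t, Γ.π y = ι t) then 0 else
    (∑ x : X, ∑ l : Λ, if Γ.π x = ι s ∧ Γ.adj x y l = true then E.η x else 0) * V.dim y

theorem frc_nonneg (E : Weights Γ ι M) (V : PMod k Γ) (s : S) : 0 ≤ frc E V s := by
  refine Finset.sum_nonneg fun y _ => ?_
  split_ifs
  · exact le_rfl
  · refine mul_nonneg (Finset.sum_nonneg fun x _ => Finset.sum_nonneg fun l _ => ?_)
      (Nat.cast_nonneg _)
    split_ifs
    · exact (E.pos x).le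
    · exact le_rfl

theorem frc_congr (E : Weights Γ ι M) {V W : PMod k Γ}
    (h : ∀ x, (¬ ∃ t, Γ.π x = ι t) → V.dim x = W.dim x) (s : S) : frc E V s = frc E W s := by
  refine Finset.sum_congr rfl fun y _ => ?_
  split_ifs with hy
  · rfl
  · rw [h y hy]

theorem frc_eq_zero (E : Weights Γ ι M) {V : PMod k Γ}
    (h : ∀ x, (¬ ∃ t, Γ.π x = ι t) → V.dim x = 0) (s : S) : frc E V s = 0 := by
  refine Finset.sum_eq_zero fun y _ => ?_
  split_ifs with hy
  · rfl
  · rw [h y hy]; simp

/-- The weighted number of neighbours. -/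
theorem sum_Nb (E : Weights Γ ι M) (V : PMod k Γ) (s : S) :
    ∑ x : X, (if Γ.π x = ι s then E.η x * ((∑ p : Γ.Nb x, V.dim p.1.1 : ℕ) : ℝ) else 0) =
      frc E V s - ∑ t ∈ Finset.univ.erase s, gram M s t * dv E V t := by
  classical
  have h1 : ∀ x : X, (if Γ.π x = ι s then E.η x * ((∑ p : Γ.Nb x, V.dim p.1.1 : ℕ) : ℝ) else 0) =
      ∑ y : X, (∑ l : Λ, if Γ.π x = ι s ∧ Γ.adj x y l = true then E.η x else 0) * V.dim y := by
    intro x
    split_ifs with hx
    · rw [Nat.cast_sum, Finset.mul_sum]
      have h2 : ∑ p : Γ.Nb x, E.η x * (V.dim p.1.1 : ℝ) =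
          ∑ p : X × Λ, if Γ.adj x p.1 p.2 = true then E.η x * (V.dim p.1 : ℝ) else 0 := by
        rw [← Finset.sum_filter]
        exact (Finset.sum_subtype (Finset.univ.filter fun p : X × Λ => Γ.adj x p.1 p.2 = true)
          (by simp) (fun p : X × Λ => E.η x * (V.dim p.1 : ℝ))).symm
      rw [h2, Fintype.sum_prod_type]
      refine Finset.sum_congr rfl fun y _ => ?_
      rw [Finset.sum_mul]
      refine Finset.sum_congr rfl fun l _ => ?_
      by_cases hl : Γ.adj x y l = true <;> simp [hl, hx]
    · symm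
      refine Finset.sum_eq_zero fun y _ => ?_
      simp [hx]
  simp only [h1]
  rw [Finset.sum_comm]
  simp only [← Finset.sum_mul]
  have h3 : ∑ t ∈ Finset.univ.erase s, gram M s t * dv E V t =
      ∑ y : X, ∑ t ∈ Finset.univ.erase s, (if Γ.π y = ι t then
        gram M s t * (E.η y * V.dim y) else 0) := by
    rw [Finset.sum_comm]
    refine Finset.sum_congr rfl fun t _ => ?_
    rw [dv_apply, Finset.mul_sum]
    refine Finset.sum_congr rfl fun y _ => ?_
    split_ifs <;> simp
  rw [h3, frc, ← Finset.sum_sub_distrib]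
  refine Finset.sum_congr rfl fun y _ => ?_
  by_cases hy : ∃ t, Γ.π y = ι t
  · obtain ⟨t, ht⟩ := hy
    rw [if_pos ⟨t, ht⟩]
    by_cases hst : s = t
    · subst hst
      have e1 : ∑ x : X, ∑ l : Λ, (if Γ.π x = ι s ∧ Γ.adj x y l = true then E.η x else 0) = 0 := by
        refine Finset.sum_eq_zero fun x _ => Finset.sum_eq_zero fun l _ => ?_
        rw [if_neg]
        rintro ⟨h1, h2⟩
        exact Γ.indep h2 (h1.trans ht.symm)
      have e2 : ∑ t ∈ Finset.univ.erase s, (if Γ.π y = ι t then
        gram M s t * (E.η y * V.dim y) else 0) = 0 := by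
        refine Finset.sum_eq_zero fun t' ht' => ?_
        rw [if_neg]
        intro h
        exact Finset.ne_of_mem_erase ht' (E.inj (h.symm.trans ht))
      rw [e1, e2]; ring
    · rw [E.eig s t hst y ht, Finset.sum_eq_single t]
      · rw [if_pos ht]; ring
      · intro t' _ ht'
        rw [if_neg]
        intro h
        exact ht' (E.inj (h.symm.trans ht))
      · intro h
        exact absurd (Finset.mem_erase.2 ⟨Ne.symm hst, Finset.mem_univ _⟩) h
  · rw [if_neg hy]
    have e2 : ∑ t ∈ Finset.univ.erase s, (if Γ.π y = ι t then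
        gram M s t * (E.η y * V.dim y) else 0) = 0 :=
      Finset.sum_eq_zero fun t _ => if_neg fun h => hy ⟨t, h⟩
    rw [e2]; ring

/-- the weighted sum of the dimensions of `N` -/
theorem dv_C_self (E : Weights Γ ι M) (V : PMod k Γ) [V.FD] (s : S) :
    dv E (PMod.C (ι s) V) s + dv E V s =
      frc E V s + kapj E V s - ∑ t ∈ Finset.univ.erase s, gram M s t * dv E V t := by
  have key : ∀ x : X, (if Γ.π x = ι s then E.η x * ((PMod.C (ι s) V).dim x : ℝ) else 0) +
      (if Γ.π x = ι s then E.η x * (V.dim x : ℝ) else 0) =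
      (if Γ.π x = ι s then E.η x * ((∑ p : Γ.Nb x, V.dim p.1.1 : ℕ) : ℝ) else 0) +
      (if Γ.π x = ι s then E.η x * Module.finrank k (LinearMap.ker (V.j x)) else 0) := by
    intro x
    split_ifs with hx
    · have := V.dim_C_of_eq hx
      have h' : ((PMod.C (ι s) V).dim x : ℝ) + V.dim x = ((∑ p : Γ.Nb x, V.dim p.1.1 : ℕ) : ℝ) +
          Module.finrank k (LinearMap.ker (V.j x)) := by
        exact_mod_cast this
      rw [← mul_add, h']; ring
    · ring
  have h1 := Finset.sum_congr (rfl : (Finset.univ : Finset X) = Finset.univ) fun x _ => key x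
  rw [Finset.sum_add_distrib, Finset.sum_add_distrib, sum_Nb] at h1
  rw [dv_apply, dv_apply, h1, kapj]
  ring

theorem dv_C_of_ne (E : Weights Γ ι M) (V : PMod k Γ) {s t : S} (h : t ≠ s) :
    dv E (PMod.C (ι s) V) t = dv E V t := by
  rw [dv_apply, dv_apply]
  refine Finset.sum_congr rfl fun x _ => ?_
  split_ifs with hx
  · rw [PMod.dim_C_of_ne V (by rw [hx]; exact fun h' => h (E.inj h'))]
  · rfl

/-- (F1), weighted. -/
theorem F1_weighted (E : Weights Γ ι M) (V : PMod k Γ) [V.FD] (s : S) :
    frc E V s + ∑ t ∈ Finset.univ.erase s, (- gram M s t) * dv E V t ≤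
      dv E V s + dv E (PMod.C (ι s) V) s := by
  have h1 := dv_C_self E V s
  have h2 := kapj_nonneg E V s
  have h3 : ∑ t ∈ Finset.univ.erase s, (- gram M s t) * dv E V t =
      - ∑ t ∈ Finset.univ.erase s, gram M s t * dv E V t := by
    rw [← Finset.sum_neg_distrib]
    exact Finset.sum_congr rfl fun t _ => by ring
  rw [h3]
  linarith

/-- The dimension formula: `C_s` acts on weighted dimension vectors as the simple reflection,
up to the framing and a nonnegative multiple of the simple root. -/
theorem dv_C {W : Type*} [Group W] (cs : CoxeterSystem M W) (E : Weights Γ ι M) (V : PMod k Γ)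
    [V.FD] (s : S) :
    dv E (PMod.C (ι s) V) =
      act cs (cs.simple s) (dv E V) + (frc E V s + kapj E V s) • Finsupp.single s 1 := by
  rw [act_simple, form_single_eq_sum]
  ext t
  rw [Finsupp.add_apply, Finsupp.sub_apply, Finsupp.smul_apply, Finsupp.smul_apply]
  by_cases hst : t = s
  · subst hst
    simp only [Finsupp.single_eq_same, smul_eq_mul, mul_one]
    have h1 := dv_C_self E V t
    have h2 : ∑ t' : S, gram M t t' * dv E V t' =
        2 * dv E V t + ∑ t' ∈ Finset.univ.erase t, gram M t t' * dv E V t' := by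
      rw [← Finset.add_sum_erase _ _ (Finset.mem_univ t), gram_self]
    rw [h2]
    linarith
  · rw [Finsupp.single_eq_of_ne hst, dv_C_of_ne E V hst]
    simp

end Vale.Agent.P203.Mod
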