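import Vale.Agent.P203.Mod.Nilp
import Vale.Agent.P203.Mod.Weights
import Vale.Agent.P203.Gar.Lift

set_option linter.all false

namespace Vale.Agent.P203.Mod

open Vale.Agent.P203.Cox Vale.Agent.P203.Gar CoxeterSystem

section Words

variable {S X Λ : Type} [Fintype X] [DecidableEq X] [Fintype Λ] [DecidableEq Λ] [DecidableEq S]
variable {k : Type} [Field k] {Γ : FGraph S X Λ}

namespace PMod

/-- The composite of the reflection functors along a word, first letter first:
`Cw (s₁ … s_n) = C_{s_n} ⋯ C_{s₁}`. -/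
def Cw : List S → PMod k Γ → PMod k Γ
  | [], V => V
  | s :: l, V => Cw l (C s V)

@[simp] theorem Cw_nil (V : PMod k Γ) : Cw [] V = V := rfl

@[simp] theorem Cw_cons (s : S) (l : List S) (V : PMod k Γ) : Cw (s :: l) V = Cw l (C s V) := rfl

theorem Cw_append (l l' : List S) : ∀ V : PMod k Γ, Cw (l ++ l') V = Cw l' (Cw l V) := by
  induction l with
  | nil => exact fun V => rfl
  | cons s l ih => exact fun V => ih (C s V)

theorem Cw_concat (l : List S) (s : S) (V : PMod k Γ) : Cw (l ++ [s]) V = C s (Cw l V) :=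
  Cw_append l [s] V

instance Cw_fd (l : List S) : ∀ (V : PMod k Γ) [V.FD], (Cw l V).FD := by
  induction l with
  | nil => intro V hV; exact hV
  | cons s l ih => intro V hV; exact ih (C s V)

theorem Nilp.Cw (l : List S) : ∀ {V : PMod k Γ}, V.Nilp → (PMod.Cw l V).Nilp := by
  induction l with
  | nil => exact fun h => h
  | cons s l ih => exact fun h => ih (h.C s)

theorem Supp.Cw {U : Set S} (l : List S) (hl : ∀ s ∈ l, s ∈ U) :
    ∀ {V : PMod k Γ}, V.Supp U → (PMod.Cw l V).Supp U := by
  induction l with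
  | nil => exact fun h => h
  | cons s l ih =>
    intro V h
    exact ih (fun t ht => hl t (List.mem_cons_of_mem _ ht)) (h.C (hl s List.mem_cons_self))

theorem IsZero.Cw (l : List S) : ∀ {V : PMod k Γ}, V.IsZero → (PMod.Cw l V).IsZero := by
  induction l with
  | nil => exact fun h => h
  | cons s l ih => exact fun h => ih (h.C s)

theorem exists_Cw_surj (l : List S) : ∀ {V W : PMod k Γ} (f : Hom V W), f.Surj →
    ∃ g : Hom (Cw l V) (Cw l W), g.Surj := by
  induction l with
  | nil => exact fun f hf => ⟨f, hf⟩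
  | cons s l ih => exact fun f hf => ih (Cmap s f) (Cmap_surj s hf)

theorem Isom.Cw (l : List S) : ∀ {V W : PMod k Γ}, Isom V W →
    Isom (PMod.Cw l V) (PMod.Cw l W) := by
  induction l with
  | nil => exact fun h => h
  | cons s l ih => exact fun h => ih (h.C s)

/-- (F2) for words. -/
theorem dim_Cw_le (s : S) (l : List S) (V : PMod k Γ) [V.FD] (x : X) :
    (Cw (s :: l) V).dim x ≤ (Cw (s :: s :: l) V).dim x := by
  obtain ⟨g, hg⟩ := exists_Cw_surj l _ (V.CC_surj s)
  exact dim_le_of_surj hg x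

theorem dim_Cw_of_not_mem (l : List S) {x : X} (h : Γ.π x ∉ l) : ∀ V : PMod k Γ,
    (Cw l V).dim x = V.dim x := by
  induction l with
  | nil => exact fun V => rfl
  | cons s l ih =>
    intro V
    rw [Cw_cons, ih (fun h' => h (List.mem_cons_of_mem _ h')), dim_C_of_ne]
    exact fun h' => h (h' ▸ List.mem_cons_self)

/-- `C_s` kills the simple modules over `s`. -/
theorem C_sim_isZero (x : X) : (C (Γ.π x) (sim k Γ x)).IsZero := by
  intro y v
  by_cases hy : Γ.π y = Γ.π x
  · obtain ⟨n, rfl⟩ := (sim k Γ x).Cpr_surj hy v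
    have : n = 0 := by
      funext p
      refine sim_eq_zero (fun h => ?_) (n p)
      exact Γ.indep p.2 (by rw [hy, h])
    rw [this, map_zero]
  · obtain ⟨w, rfl⟩ := ((sim k Γ x).Cin_bij hy).2 v
    rw [sim_eq_zero (fun h => hy (by rw [h])) w, map_zero]

/-- Over the last letter of a nonempty word, `i` is surjective. -/
theorem Cw_concat_i_surj (l : List S) (V : PMod k Γ) (x : X) :
    Function.Surjective ((Cw (l ++ [Γ.π x]) V).i x) := by
  rw [Cw_concat]
  exact C_i_surj _ rfl

end PMod

end Words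

open PMod

variable {S C X Λ : Type} [Fintype X] [DecidableEq X] [Fintype Λ] [DecidableEq Λ]
  [DecidableEq C] [Fintype S] [DecidableEq S]
variable {k : Type} [Field k] {Γ : FGraph C X Λ} {ι : S → C} {M : CoxeterMatrix S}

/-- the composite along the chosen reduced word of `w` -/
noncomputable def CW (ι : S → C) (w : M.Group) (V : PMod k Γ) : PMod k Γ :=
  Cw ((redWord M w).map ι) V

instance CW_fd (w : M.Group) (V : PMod k Γ) [V.FD] : (CW ι w V).FD := Cw_fd _ V

theorem frc_Cw (E : Weights Γ ι M) (l : List S) (V : PMod k Γ) (s : S) :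
    frc E (Cw (l.map ι) V) s = frc E V s := by
  refine frc_congr E (fun x hx => ?_) s
  rw [dim_Cw_of_not_mem]
  intro h
  obtain ⟨t, _, ht⟩ := List.mem_map.1 h
  exact hx ⟨t, ht.symm⟩

theorem single_NN_of_cons {l : List S} {s : S} (hl : M.toCoxeterSystem.IsReduced (s :: l)) :
    NN (act M.toCoxeterSystem (M.toCoxeterSystem.wordProd l)⁻¹ (Finsupp.single s 1)) := by
  have hl' : M.toCoxeterSystem.IsReduced l := hl.drop 1
  apply length_lt_iff_NN.1
  rw [← M.toCoxeterSystem.inv_simple, ← mul_inv_rev, M.toCoxeterSystem.length_inv,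
    M.toCoxeterSystem.length_inv, ← M.toCoxeterSystem.wordProd_cons, hl.eq, hl'.eq]
  simp

/-- Along a reduced word, the weighted dimension vector is at least the reflected one. -/
theorem le_dv_Cw (E : Weights Γ ι M) (l : List S) (hl : M.toCoxeterSystem.IsReduced l) :
    ∀ (V : PMod k Γ) [V.FD], NN (dv E (Cw (l.map ι) V) -
      act M.toCoxeterSystem (M.toCoxeterSystem.wordProd l)⁻¹ (dv E V)) := by
  induction l with
  | nil =>
    intro V _ s
    rw [M.toCoxeterSystem.wordProd_nil, inv_one, act_one_apply, List.map_nil, Cw_nil, sub_self]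
    simp
  | cons s l ih =>
    intro V _
    have hl' : M.toCoxeterSystem.IsReduced l := hl.drop 1
    have h1 := ih hl' (PMod.C (ι s) V)
    rw [dv_C M.toCoxeterSystem] at h1
    have h2 := single_NN_of_cons hl
    rw [M.toCoxeterSystem.wordProd_cons, mul_inv_rev, M.toCoxeterSystem.inv_simple, act_mul_apply,
      List.map_cons, Cw_cons]
    set w := M.toCoxeterSystem.wordProd l with hw
    rw [map_add, map_smul] at h1
    have h4 := h1.add (h2.smul (add_nonneg (frc_nonneg E V s) (kapj_nonneg E V s)))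
    intro t
    have h5 := h4 t
    simp only [Finsupp.add_apply, Finsupp.sub_apply, Finsupp.smul_apply] at h5 ⊢
    linarith

theorem le_dv_Cw_apply (E : Weights Γ ι M) (l : List S) (hl : M.toCoxeterSystem.IsReduced l)
    (V : PMod k Γ) [V.FD] (t : S) :
    act M.toCoxeterSystem (M.toCoxeterSystem.wordProd l)⁻¹ (dv E V) t ≤
      dv E (Cw (l.map ι) V) t := by
  have := le_dv_Cw E l hl V t
  rw [Finsupp.sub_apply] at this
  linarith

theorem le_dv_CW (E : Weights Γ ι M) (w : M.Group) (V : PMod k Γ) [V.FD] (t : S) :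
    act M.toCoxeterSystem w⁻¹ (dv E V) t ≤ dv E (CW ι w V) t := by
  have h := redWord_spec M w
  have := le_dv_Cw_apply E (redWord M w) h.1 V t
  rw [← h.2] at this
  exact this

theorem dv_sim (E : Weights Γ ι M) {x : X} {r : S} (hx : Γ.π x = ι r) :
    dv E (sim k Γ x) = E.η x • Finsupp.single r (1 : ℝ) := by
  ext s
  rw [dv_apply, Finset.sum_eq_single x]
  · rw [sim_dim, if_pos rfl, Finsupp.smul_apply]
    by_cases h : r = s
    · subst h
      rw [if_pos hx]; simp
    · rw [if_neg (fun h' => h (E.inj (hx.symm.trans h'))), Finsupp.single_eq_of_ne (Ne.symm h)]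
      simp
  · intro y _ hy
    rw [sim_dim, if_neg hy]; simp
  · intro h; exact absurd (Finset.mem_univ _) h

/-- `C_w S_x ≠ 0` if `ℓ (s_x w) > ℓ w`. -/
theorem Cw_sim_ne (E : Weights Γ ι M) (l : List S) (hl : M.toCoxeterSystem.IsReduced l) {x : X}
    {r : S} (hx : Γ.π x = ι r)
    (h : M.toCoxeterSystem.length (M.toCoxeterSystem.wordProd l) <
      M.toCoxeterSystem.length (M.simple r * M.toCoxeterSystem.wordProd l)) :
    ¬ (Cw (l.map ι) (sim k Γ x)).IsZero := by
  intro hz
  rw [isZero_iff_dim] at hz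
  set w := M.toCoxeterSystem.wordProd l with hw
  have h2 : NN (act M.toCoxeterSystem w⁻¹ (Finsupp.single r 1)) := by
    apply length_lt_iff_NN.1
    rw [← M.toCoxeterSystem.inv_simple, ← mul_inv_rev, M.toCoxeterSystem.length_inv,
      M.toCoxeterSystem.length_inv]
    exact h
  have h3 : ∀ t, act M.toCoxeterSystem w⁻¹ (Finsupp.single r (1 : ℝ)) t = 0 := by
    intro t
    have h4 := le_dv_Cw_apply E l hl (sim k Γ x) t
    rw [(dv_eq_zero_iff E _ t).2 fun y _ => hz y, dv_sim E hx, map_smul, Finsupp.smul_apply,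
      smul_eq_mul] at h4
    have h5 := h2 t
    have h6 := E.pos x
    nlinarith
  have h7 : act M.toCoxeterSystem w⁻¹ (Finsupp.single r (1 : ℝ)) = 0 := by
    ext t; exact h3 t
  have h8 := act_self_inv_apply (cs := M.toCoxeterSystem) w (Finsupp.single r (1 : ℝ))
  rw [h7, map_zero] at h8
  have h9 := congrArg (fun v => v r) h8
  simp at h9

/-- Invariance of the action of positive words on simple modules: the interface to the dg model. -/
def GInv (k : Type) [Field k] (Γ : FGraph C X Λ) (ι : S → C) (M : CoxeterMatrix S) : Prop :=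
  ∀ (x : X) (l l' : List S), (l.map (artinGen M)).prod = (l'.map (artinGen M)).prod →
    Isom (Cw (l.map ι) (sim k Γ x)) (Cw (l'.map ι) (sim k Γ x))

theorem prod_redWord (w : M.Group) : ((redWord M w).map (artinGen M)).prod = tl w := rfl

/-- Top of `C_w S_x`: a simple quotient `S_y` with `ℓ (w s_y) > ℓ w`. -/
theorem exists_quot (hG : GInv k Γ ι M) (E : Weights Γ ι M) {U : Set S} {w : M.Group}
    (hw : w ∈ WP M U) {x : X} {r : S} (hx : Γ.π x = ι r) (hr : r ∈ U)
    (h : len M w < len M (M.simple r * w)) :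
    ∃ (y : X) (q : S), Γ.π y = ι q ∧ q ∈ U ∧ len M w < len M (w * M.simple q) ∧
      ∃ f : Hom (CW ι w (sim k Γ x)) (sim k Γ y), f.Surj := by
  obtain ⟨hred, hw'⟩ := redWord_spec M w
  have h1 : ¬ (CW ι w (sim k Γ x)).IsZero := by
    refine Cw_sim_ne E (redWord M w) hred hx ?_
    rw [← hw']
    exact h
  obtain ⟨y, hy⟩ := (((sim_nilp x).Cw ((redWord M w).map ι)).exists_top h1)
  obtain ⟨f, hf⟩ := exists_hom_sim hy
  have hmem : ∀ i ∈ redWord M w, i ∈ U := mem_of_reduced hred (by rw [← hw']; exact hw)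
  have hsupp : (CW ι w (sim k Γ x)).Supp (ι '' U) := by
    refine Supp.Cw ((redWord M w).map ι) ?_ ((sim_supp x).mono ?_)
    · intro c hc
      obtain ⟨i, hi, rfl⟩ := List.mem_map.1 hc
      exact ⟨i, hmem i hi, rfl⟩
    · rw [Set.singleton_subset_iff, hx]
      exact ⟨r, hr, rfl⟩
  have hyU : Γ.π y ∈ ι '' U := by
    by_contra hyU
    refine hy fun v => ⟨0, ?_⟩
    have hv : v = 0 := hsupp y hyU v
    rw [hv, map_zero]
  obtain ⟨q, hqU, hq⟩ := hyU
  refine ⟨y, q, hq.symm, hqU, ?_, f, hf⟩
  by_contra hcon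
  -- otherwise `w = w' s_q` reduced and `i` is surjective
  have hlt : len M (w * M.simple q) < len M w := by
    rcases len_mul_simple w q with h' | h' <;> omega
  have e1 : tl w = tl (w * M.simple q) * artinGen M q := tl_eq_mul_of_desc hlt
  have e2 : ((redWord M w).map (artinGen M)).prod =
      ((redWord M (w * M.simple q) ++ [q]).map (artinGen M)).prod := by
    rw [List.map_append, List.prod_append, List.map_singleton, List.prod_singleton]
    exact e1
  obtain ⟨g, hg⟩ := (hG x _ _ e2).symm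
  have h3 := Cw_concat_i_surj ((redWord M (w * M.simple q)).map ι) (sim k Γ x) y
  rw [← hq, ← List.map_singleton (f := ι), ← List.map_append] at h3
  refine hy fun v => ?_
  obtain ⟨v', rfl⟩ := (hg y).2 v
  obtain ⟨n, rfl⟩ := h3 v'
  exact ⟨g.n y n, (g.i_n y n)⟩

end Vale.Agent.P203.Mod
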